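import Vale.Agent.P100.Planes.Inversion
import Vale.Agent.P100.Sector.Low
import Vale.Agent.P100.Doubling.GradBound

/-!
P100, moving spheres about the origin: the behaviour at the origin and at infinity.
-/

open MeasureTheory Metric Set Filter Topology

namespace Vale.Agent.P100.Planes

open Vale.Agent.P100.Sys
open Vale.Agent.P100.Sector (Sol shell mem_shell shell_subset isCompact_shell lap_scale pd_comp_smul)

variable {n : ℕ} {A B p q : ℝ} {u v : EuclideanSpace ℝ (Fin n) → ℝ}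

/-- `x · ∇u` vanishes at the origin. -/
theorem tendsto_eul (hn : 3 ≤ n) (hA : -2 < A) (_hp : 0 ≤ p) (hu : Continuous u) (hv : Continuous v)
    (hv0 : ∀ x, 0 < v x) (hu2 : ContDiffOn ℝ 2 u {0}ᶜ)
    (heq : ∀ x ≠ 0, lap u x = -(‖x‖ ^ A * v x ^ p)) :
    Tendsto (eul u) (𝓝[≠] 0) (𝓝 0) := by
  obtain ⟨C, hC, hgrad⟩ := Doubling.exists_local_grad hn
  have hA2 : 0 < 2 + A := by linarith
  set N : ℝ := max ((3 : ℝ) ^ A) ((7 : ℝ) ^ A) with hN
  have hN0 : 0 < N := lt_max_of_lt_left (Real.rpow_pos_of_pos (by norm_num) _)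
  rw [Metric.tendsto_nhdsWithin_nhds]
  intro ε hε
  set η : ℝ := ε / (10 * n * C + 1) with hη
  have hη0 : 0 < η := div_pos hε (by positivity)
  have t1 : ∀ᶠ z in 𝓝 (0 : EuclideanSpace ℝ (Fin n)), |u z - u 0| < η ∧ v z ^ p < v 0 ^ p + 1 :=
    (((continuous_abs.tendsto' _ _ (abs_zero)).comp
      (tendsto_sub_nhds_zero_iff.2 (hu.tendsto 0))).eventually_lt_const hη0).and
      (((hv.rpow_const fun z => Or.inl (hv0 z).ne').tendsto 0).eventually_lt_const (lt_add_one _))
  have t2 : ∀ᶠ R in 𝓝 (0 : ℝ), R ^ (2 + A) * (N * (v 0 ^ p + 1)) < η :=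
    (((continuous_id.rpow_const fun _ => Or.inr hA2.le).mul continuous_const).tendsto' 0 0
      (by simp [Real.zero_rpow hA2.ne'])).eventually_lt_const hη0
  obtain ⟨δ₁, hδ₁, h1⟩ := Metric.eventually_nhds_iff.1 t1
  obtain ⟨δ₂, hδ₂, h2⟩ := Metric.eventually_nhds_iff.1 t2
  refine ⟨min (δ₁ / 2) δ₂, lt_min (by linarith) hδ₂, fun x hx hxd => ?_⟩
  rw [dist_zero_right] at hxd
  rw [Real.dist_eq, sub_zero]
  have hx' : x ≠ 0 := hx
  have hx0 : 0 < ‖x‖ := norm_pos_iff.2 hx'
  set R : ℝ := ‖x‖ / 5 with hR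
  have hR0 : 0 < R := by positivity
  set y₀ : EuclideanSpace ℝ (Fin n) := R⁻¹ • x with hy₀
  have hy5 : ‖y₀‖ = 5 := by
    rw [hy₀, norm_smul, norm_inv, Real.norm_eq_abs, abs_of_pos hR0, hR]
    field_simp
  have hRy : R • y₀ = x := by rw [hy₀, smul_smul, mul_inv_cancel₀ hR0.ne', one_smul]
  set w : EuclideanSpace ℝ (Fin n) → ℝ := fun y => u (R • y) - u 0 with hw
  have hball : ∀ y ∈ closedBall y₀ 2, 3 ≤ ‖y‖ ∧ ‖y‖ ≤ 7 := fun y hy => by
    rw [mem_closedBall, dist_eq_norm] at hy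
    constructor
    · have := norm_sub_norm_le y₀ y
      rw [norm_sub_rev] at this
      linarith
    · have := norm_sub_norm_le y y₀
      linarith
  have hw2 : ContDiffOn ℝ 2 w (ball y₀ 4) := by
    refine (hu2.comp (contDiff_const_smul R).contDiffOn fun y hy => ?_).sub contDiffOn_const
    rw [mem_ball, dist_eq_norm] at hy
    have := norm_sub_norm_le y₀ y
    rw [norm_sub_rev] at this
    show R • y ≠ 0
    exact smul_ne_zero hR0.ne' (norm_pos_iff.1 (by linarith))
  have hnear : ∀ y ∈ closedBall y₀ 2, |u (R • y) - u 0| < η ∧ v (R • y) ^ p < v 0 ^ p + 1 :=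
    fun y hy => h1 (by
      rw [dist_zero_right, norm_smul, Real.norm_eq_abs, abs_of_pos hR0]
      have := mul_le_mul_of_nonneg_left (hball y hy).2 hR0.le
      have : ‖x‖ < δ₁ / 2 := hxd.trans_le (min_le_left _ _)
      have : R * 5 = ‖x‖ := by rw [hR]; ring
      linarith)
  have epd : ∀ i, pd i w = pd i fun y => u (R • y) := fun i => funext fun y => by
    simp [hw, pd, fderiv_sub_const]
  have hlap : ∀ y ∈ closedBall y₀ 2, |lap w y| ≤ η := fun y hy => by
    have hy0 : y ≠ 0 := norm_pos_iff.1 (by linarith [(hball y hy).1])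
    have e : lap w y = lap (fun y => 1 * u (R • y)) y := by simp only [lap, epd, one_mul]
    rw [e, lap_scale u hR0.ne', heq _ (smul_ne_zero hR0.ne' hy0), norm_smul, Real.norm_eq_abs,
      abs_of_pos hR0, Real.mul_rpow hR0.le (norm_nonneg y), one_mul, abs_mul, abs_neg,
      abs_of_nonneg (sq_nonneg R), abs_of_nonneg (mul_nonneg (mul_nonneg (Real.rpow_nonneg hR0.le _)
        (Real.rpow_nonneg (norm_nonneg y) _)) (Real.rpow_nonneg (hv0 _).le _))]
    have hyA : ‖y‖ ^ A ≤ N := by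
      rcases le_total 0 A with hA0 | hA0
      · exact (Real.rpow_le_rpow (norm_nonneg y) (hball y hy).2 hA0).trans (le_max_right _ _)
      · exact (Real.rpow_le_rpow_of_nonpos (by norm_num) (hball y hy).1 hA0).trans (le_max_left _ _)
    have hRd : R ^ (2 + A) * (N * (v 0 ^ p + 1)) < η := h2 (by
      rw [Real.dist_eq, sub_zero, abs_of_pos hR0]
      have : ‖x‖ < δ₂ := hxd.trans_le (min_le_right _ _)
      linarith [hR])
    have hm := mul_le_mul_of_nonneg_left
      (mul_le_mul hyA (hnear y hy).2.le (Real.rpow_nonneg (hv0 _).le _) hN0.le)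
      (Real.rpow_nonneg hR0.le (2 + A))
    rw [Real.rpow_add hR0, Real.rpow_two] at hRd hm
    linarith
  have hj : ∀ j, |R * pd j u x| ≤ 2 * C * η := fun j => by
    have h := hgrad w y₀ η η hw2 (fun y hy => (hnear y hy).1.le) hlap j
    rw [epd, pd_comp_smul u hR0.ne', hRy] at h
    linarith
  have hb : ∀ j, |x j * pd j u x| ≤ 10 * C * η := fun j => by
    have h := mul_le_mul_of_nonneg_left (hj j) (by norm_num : (0 : ℝ) ≤ 5)
    rw [abs_mul, abs_of_pos hR0, ← mul_assoc, hR, mul_div_cancel₀ _ (by norm_num : (5 : ℝ) ≠ 0)] at h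
    rw [abs_mul]
    refine le_trans (mul_le_mul_of_nonneg_right ?_ (abs_nonneg _)) (h.trans_eq (by ring))
    exact (Real.norm_eq_abs _).symm.le.trans (PiLp.norm_apply_le x j)
  calc |eul u x| ≤ ∑ j, |x j * pd j u x| := Finset.abs_sum_le_sum_abs _ _
    _ ≤ ∑ _j : Fin n, 10 * C * η := Finset.sum_le_sum fun j _ => hb j
    _ = 10 * n * C * η := by simp; ring
    _ < (10 * n * C + 1) * η := by linarith
    _ = ε := by rw [hη]; field_simp

/-- A solution cannot decay more slowly than the scaling rate. -/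
theorem not_growth (hn : 3 ≤ n) (_hA : -2 < A) (_hB : -2 < B) (hp : 0 < p) (hq : 0 < q)
    (hpq : 1 < p * q) (h : Sol n A B p q u v) {g c : ℝ} (hc : 0 < c)
    (hg : g * (p * q - 1) < 2 + A + (2 + B) * p)
    (hlow : ∀ x, 1 ≤ ‖x‖ → c * ‖x‖ ^ (-g) ≤ u x) : False := by
  obtain ⟨C, hC, huniv⟩ := Sector.exists_universal hn A B hp hq hpq
  obtain ⟨c', hc', hlow'⟩ := Sector.exists_shell_lower (n := n) (by omega) (-g)
  have hD : 0 < p * q - 1 := by linarith
  set α : ℝ := (2 + A + (2 + B) * p) / (p * q - 1) with hαd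
  set β : ℝ := (2 + B + (2 + A) * q) / (p * q - 1) with hβd
  have eα : α * (p * q - 1) = 2 + A + (2 + B) * p := div_mul_cancel₀ _ hD.ne'
  have eβ : β * (p * q - 1) = 2 + B + (2 + A) * q := div_mul_cancel₀ _ hD.ne'
  have h1 : β * p = α + 2 + A := by
    refine mul_right_cancel₀ hD.ne' ?_
    linear_combination p * eβ - eα
  have h2 : α * q = β + 2 + B := by
    refine mul_right_cancel₀ hD.ne' ?_
    linear_combination q * eα - eβ
  have hαg : 0 < α - g := sub_pos.2 (lt_of_mul_lt_mul_right (hg.trans_eq eα.symm) hD.le)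
  obtain ⟨R, hR2, hRb⟩ := ((eventually_ge_atTop (2 : ℝ)).and
    ((tendsto_rpow_atTop hαg).eventually_gt_atTop (C / (c * c')))).exists
  have hR : 0 < R := by linarith
  have hS := h.scale hR h1 h2
  have hu := (huniv _ _ hS).1
  have hu1 : IntegrableOn (fun y : EuclideanSpace ℝ (Fin n) => c * R ^ (α - g) * ‖y‖ ^ (-g))
      (shell n) :=
    (continuousOn_const.mul (continuous_norm.continuousOn.rpow_const fun y hy =>
      Or.inl (norm_ne_zero_iff.2 (by simpa using shell_subset hy)))).integrableOn_compact isCompact_shell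
  have hle : c * R ^ (α - g) * ∫ y in shell n, ‖y‖ ^ (-g) ≤ ∫ y in shell n, R ^ α * u (R • y) := by
    rw [← integral_const_mul]
    refine setIntegral_mono_on hu1 (hS.contu.continuousOn.integrableOn_compact isCompact_shell)
      isCompact_shell.measurableSet fun y hy => ?_
    have hy2 := (mem_shell.1 hy).1
    have hn1 : ‖R • y‖ = R * ‖y‖ := by rw [norm_smul, Real.norm_eq_abs, abs_of_pos hR]
    have h0 := mul_le_mul_of_nonneg_left (hlow (R • y) (by rw [hn1]; nlinarith))
      (Real.rpow_nonneg hR.le α)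
    rw [hn1, Real.mul_rpow hR.le (norm_nonneg y)] at h0
    rw [Real.rpow_sub hR]
    rw [Real.rpow_neg hR.le] at h0
    calc c * (R ^ α / R ^ g) * ‖y‖ ^ (-g) = R ^ α * (c * ((R ^ g)⁻¹ * ‖y‖ ^ (-g))) := by ring
      _ ≤ _ := h0
  have h3 : c' ≤ ∫ y in shell n, ‖y‖ ^ (-g) := by
    obtain ⟨x₀, hx₀, hm⟩ := isCompact_shell.exists_isMinOn
      (⟨EuclideanSpace.single ⟨0, by omega⟩ 1, mem_shell.2 (by simp; norm_num)⟩ : (shell n).Nonempty)
      (continuousOn_const (c := (1 : ℝ)))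
    simpa using hlow' (fun _ => 1) 0 x₀ le_rfl continuous_const (fun _ => one_pos) hm
  rw [div_lt_iff₀ (mul_pos hc hc')] at hRb
  have := mul_le_mul_of_nonneg_left h3 (mul_nonneg hc.le (Real.rpow_nonneg hR.le (α - g)))
  linarith

end Vale.Agent.P100.Planes
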