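import Vale.Agent.P100.Planes.Move
import Vale.Agent.P100.Planes.Ends
import Vale.Agent.P100.Sector.Low
import Vale.Agent.P100.Diag.Sublinear

/-!
P100, moving spheres about the origin: no solution when both scaling exponents exceed `(n-2)/2`,
and none when one of them exceeds `n-2`.
-/

open Filter Topology Set Metric
open scoped Laplacian

namespace Vale.Agent.P100.Planes

open Vale.Agent.P100.Sys Vale.Agent.P100.Cmp Vale.Agent.P100.Wt
open Vale.Agent.P100.Sector (Sol)

variable {n : ℕ} {A B p q g h : ℝ} {u v : EuclideanSpace ℝ (Fin n) → ℝ}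

theorem eul_wgt {x : EuclideanSpace ℝ (Fin n)} (hu : ContDiffOn ℝ 2 u {0}ᶜ) (hx : x ≠ 0) (g : ℝ) :
    eul (wgt g u) x = rw' g x * (eul u x + g * u x) := by
  have hn := isOpen_compl_singleton.mem_nhds (show x ∈ ({0}ᶜ : Set (EuclideanSpace ℝ (Fin n))) from hx)
  have hz : ∑ i, x i * zc i x = 1 := by
    have : ∑ i, x i * x i = ‖x‖ ^ 2 := by rw [EuclideanSpace.norm_sq_eq]; simp [pow_two]
    calc ∑ i, x i * zc i x = (∑ i, x i * x i) * (‖x‖ ^ 2)⁻¹ := by
          rw [Finset.sum_mul]; exact Finset.sum_congr rfl fun i _ => by simp only [zc]; ring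
      _ = 1 := by rw [this, mul_inv_cancel₀ (norm_sq_ne hx)]
  calc eul (wgt g u) x
      = ∑ i, (rw' g x * (x i * pd i u x) + rw' g x * g * u x * (x i * zc i x)) :=
        Finset.sum_congr rfl fun i _ => by
          show x i * pd i (fun y => rw' g y * u y) x = _
          rw [pd_mul (((contDiffOn_rw' (k := 1) g).contDiffAt hn).differentiableAt (by norm_num))
            ((hu.contDiffAt hn).differentiableAt (by norm_num)), pd_rw' g hx]
          ring
    _ = _ := by rw [Finset.sum_add_distrib, ← Finset.mul_sum, ← Finset.mul_sum, hz, eul]; ring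

/-- The data near the origin. -/
theorem Frame.eventually_start (F : Frame n A B p q g h u v) :
    ∀ᶠ x in 𝓝 (0 : EuclideanSpace ℝ (Fin n)), x ≠ 0 → 0 ≤ eul (wgt g u) x ∧
      max 1 p * ‖x‖ ^ (2 + A) * v x ^ (p - 1) ≤ ((((n : ℝ) - 2) / 2) ^ 2 - (g - h) ^ 2) / 2 := by
  have hn3 : (3 : ℝ) ≤ n := by exact_mod_cast F.hn
  have := F.g_low
  have := F.g_high
  have := F.h_low
  have := F.h_high
  have hA2 : 0 < 2 + A := by linarith [F.hA]
  have hu0 : 0 < g * u 0 := mul_pos (by linarith) (F.sol.posu 0)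
  have t1 : Tendsto (fun x => eul u x + g * u x) (𝓝[≠] (0 : EuclideanSpace ℝ (Fin n)))
      (𝓝 (g * u 0)) := by
    have hc : Tendsto (fun x => g * u x) (𝓝[≠] (0 : EuclideanSpace ℝ (Fin n))) (𝓝 (g * u 0)) :=
      ((continuous_const.mul F.sol.contu).tendsto' 0 _ rfl).mono_left nhdsWithin_le_nhds
    have := (tendsto_eul F.hn F.hA F.hp.le F.sol.contu F.sol.contv F.sol.posv F.sol.smoothu
      F.sol.equ).add hc
    simpa using this
  have hk : 0 < ((((n : ℝ) - 2) / 2) ^ 2 - (g - h) ^ 2) / 2 := by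
    rw [sq_sub_sq]
    exact div_pos (mul_pos (by linarith) (by linarith)) two_pos
  have t2 : Tendsto (fun x : EuclideanSpace ℝ (Fin n) => max 1 p * ‖x‖ ^ (2 + A) * v x ^ (p - 1))
      (𝓝 0) (𝓝 0) := by
    refine ((continuous_const.mul (continuous_norm.rpow_const fun _ => Or.inr hA2.le)).mul
      (F.sol.contv.rpow_const fun x => Or.inl (F.sol.posv x).ne')).tendsto' 0 0 ?_
    simp [Real.zero_rpow hA2.ne']
  filter_upwards [eventually_nhdsWithin_iff.1 (t1.eventually_const_lt hu0),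
    t2.eventually_lt_const hk] with x h1 h2 hx
  refine ⟨?_, h2.le⟩
  rw [eul_wgt F.sol.smoothu hx]
  exact mul_nonneg (rw'_pos g hx).le (h1 hx).le

theorem Frame.exists_start (F : Frame n A B p q g h u v) :
    ∃ r₀, 0 < r₀ ∧ Start n A p g h u v r₀ ∧ Start n B q h g v u r₀ := by
  obtain ⟨δ, hδ, h⟩ := Metric.eventually_nhds_iff.1 (F.eventually_start.and F.swap.eventually_start)
  have hd : ∀ x : EuclideanSpace ℝ (Fin n), ‖x‖ ≤ δ / 2 → dist x 0 < δ := fun x hx => by
    rw [dist_zero_right]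
    linarith
  exact ⟨δ / 2, by linarith, ⟨fun x hx hr => ((h (hd x hr)).1 hx).1,
    fun x hx hr => ((h (hd x hr)).1 hx).2⟩,
    ⟨fun x hx hr => ((h (hd x hr)).2 hx).1, fun x hx hr => ((h (hd x hr)).2 hx).2⟩⟩

/-- A frame bounds `u` below by a power of `|x|` at infinity. -/
theorem Frame.lower (F : Frame n A B p q g h u v) :
    ∃ c, 0 < c ∧ ∀ x : EuclideanSpace ℝ (Fin n), 1 ≤ ‖x‖ → c * ‖x‖ ^ (-g) ≤ u x := by
  obtain ⟨r₀, hr₀, S, S'⟩ := F.exists_start
  obtain ⟨y₀, hy₀, hmin⟩ := (isCompact_sphere (0 : EuclideanSpace ℝ (Fin n)) 1).exists_isMinOn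
    ⟨EuclideanSpace.single ⟨0, (by omega : 0 < 3).trans_le F.hn⟩ 1, by simp⟩ F.sol.contu.continuousOn
  refine ⟨u y₀, F.sol.posu y₀, fun x hx => ?_⟩
  have hx0 : 0 < ‖x‖ := by linarith
  set y : EuclideanSpace ℝ (Fin n) := ‖x‖⁻¹ • x with hy
  have hy1 : ‖y‖ = 1 := by
    rw [hy, norm_smul, norm_inv, norm_norm, inv_mul_cancel₀ hx0.ne']
  have hm : u y₀ ≤ u y := hmin (mem_sphere_zero_iff_norm.2 hy1)
  have hxy : ‖x‖ • y = x := by rw [hy, smul_smul, mul_inv_cancel₀ hx0.ne', one_smul]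
  have hle := le_of_eul (f := wgt g u) (fun z hz => (contDiffAt_wgt F.sol.smoothu hz g).contDiffWithinAt)
    (norm_pos_iff.1 (hy1 ▸ one_pos)) hx fun z hz _ =>
      F.eul_nonneg hr₀ S S' (norm_pos_iff.1 (one_pos.trans_le (hy1 ▸ hz)))
  rw [hxy, wgt, wgt, rw'_eq, rw'_eq, hy1, Real.one_rpow, one_mul] at hle
  rw [Real.rpow_neg hx0.le, ← div_eq_mul_inv, div_le_iff₀ (Real.rpow_pos_of_pos hx0 _)]
  linarith

/-- No solution with `pq > 1` when a scaling exponent exceeds `n - 2`. -/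
theorem not_sol_of_large (hn : 3 ≤ n) (hA : -2 < A) (hB : -2 < B) (hp : 0 < p) (hq : 0 < q)
    (hpq : 1 < p * q) (hα : ((n : ℝ) - 2) * (p * q - 1) < 2 + A + (2 + B) * p) :
    ¬ Sol n A B p q u v := by
  intro S
  obtain ⟨y₀, hy₀, hmin⟩ := (isCompact_sphere (0 : EuclideanSpace ℝ (Fin n)) 1).exists_isMinOn
    ⟨EuclideanSpace.single ⟨0, by omega⟩ 1, by simp⟩ S.contu.continuousOn
  refine not_growth hn hA hB hp hq hpq S (S.posu y₀) hα fun x hx => ?_
  have hn' : ∀ y : EuclideanSpace ℝ (Fin n), y ≠ 0 → ({0}ᶜ : Set (EuclideanSpace ℝ (Fin n))) ∈ 𝓝 y :=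
    fun y hy => isOpen_compl_singleton.mem_nhds hy
  have h := Diag.outer_lower hn S.contu S.posu (fun y hy => S.smoothu.contDiffAt (hn' y hy))
    (fun y hy => by
      rw [S.equ y hy, neg_lt_zero]
      exact mul_pos (Real.rpow_pos_of_pos (norm_pos_iff.2 hy) _)
        (Real.rpow_pos_of_pos (S.posv y) _))
    (S.posu y₀).le one_pos (fun y hy => hmin (mem_sphere_zero_iff_norm.2 hy)) hx
  rw [div_one] at h
  rwa [neg_sub]

/-- No solution with `pq > 1` when both scaling exponents exceed `(n - 2)/2`. -/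
theorem not_sol_of_both (hn : 3 ≤ n) (hA : -2 < A) (hB : -2 < B) (hp : 0 < p) (hq : 0 < q)
    (hpq : 1 < p * q) (hα : ((n : ℝ) - 2) * (p * q - 1) < 2 * (2 + A + (2 + B) * p))
    (hβ : ((n : ℝ) - 2) * (p * q - 1) < 2 * (2 + B + (2 + A) * q)) :
    ¬ Sol n A B p q u v := by
  intro S
  rcases lt_or_ge (((n : ℝ) - 2) * (p * q - 1)) (2 + A + (2 + B) * p) with hla | hla
  · exact not_sol_of_large hn hA hB hp hq hpq hla S
  rcases lt_or_ge (((n : ℝ) - 2) * (p * q - 1)) (2 + B + (2 + A) * q) with hlb | hlb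
  · exact not_sol_of_large hn hB hA hq hp (by linarith) (by linarith) S.swap
  have hn3 : (3 : ℝ) ≤ n := by exact_mod_cast hn
  have hD : 0 < p * q - 1 := by linarith
  set α : ℝ := (2 + A + (2 + B) * p) / (p * q - 1) with hαd
  set β : ℝ := (2 + B + (2 + A) * q) / (p * q - 1) with hβd
  have eα : α * (p * q - 1) = 2 + A + (2 + B) * p := div_mul_cancel₀ _ hD.ne'
  have eβ : β * (p * q - 1) = 2 + B + (2 + A) * q := div_mul_cancel₀ _ hD.ne'
  set a : ℝ := ((n : ℝ) - 2) / 2 with ha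
  have haα : a < α := by rw [hαd, lt_div_iff₀ hD, ha]; linarith
  have haβ : a < β := by rw [hβd, lt_div_iff₀ hD, ha]; linarith
  have hαn : α ≤ (n : ℝ) - 2 := by rw [hαd, div_le_iff₀ hD]; linarith
  have hβn : β ≤ (n : ℝ) - 2 := by rw [hβd, div_le_iff₀ hD]; linarith
  have ha0 : 0 < a := by rw [ha]; linarith
  have hm : 0 < min α β := lt_min (ha0.trans haα) (ha0.trans haβ)
  set θ : ℝ := (1 + a / min α β) / 2 with hθ
  have hρ1 : a / min α β < 1 := (div_lt_one hm).2 (lt_min haα haβ)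
  have hρ0 : 0 < a / min α β := div_pos ha0 hm
  have hθ1 : θ < 1 := by rw [hθ]; linarith
  have hθa : ∀ γ, min α β ≤ γ → a < θ * γ := fun γ hγ => by
    have h1 : a / min α β < θ := by rw [hθ]; linarith
    rw [div_lt_iff₀ hm] at h1
    exact h1.trans_le (mul_le_mul_of_nonneg_left hγ (by linarith))
  have h1 : p * β = α + 2 + A := by
    refine mul_right_cancel₀ hD.ne' ?_
    linear_combination p * eβ - eα
  have h2 : q * α = β + 2 + B := by
    refine mul_right_cancel₀ hD.ne' ?_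
    linear_combination q * eα - eβ
  have F : Frame n A B p q (θ * α) (θ * β) u v :=
    { hn := hn
      hA := hA
      hB := hB
      hp := hp
      hq := hq
      sol := S
      g_low := hθa α (min_le_left _ _)
      g_high := (mul_lt_of_lt_one_left (ha0.trans haα) hθ1).trans_le hαn
      h_low := hθa β (min_le_right _ _)
      h_high := (mul_lt_of_lt_one_left (ha0.trans haβ) hθ1).trans_le hβn
      sig := by
        rw [show 2 + A + θ * α - p * (θ * β) = (1 - θ) * (2 + A) by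
          linear_combination -θ * h1]
        exact mul_pos (by linarith) (by linarith)
      tau := by
        rw [show 2 + B + θ * β - q * (θ * α) = (1 - θ) * (2 + B) by
          linear_combination -θ * h2]
        exact mul_pos (by linarith) (by linarith) }
  obtain ⟨c, hc, hlow⟩ := F.lower
  refine not_growth hn hA hB hp hq hpq S hc ?_ hlow
  calc θ * α * (p * q - 1) < α * (p * q - 1) :=
        mul_lt_mul_of_pos_right (mul_lt_of_lt_one_left (ha0.trans haα) hθ1) hD
    _ = _ := eα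

/-- No positive entire solution in either region, for all positive exponents. -/
theorem no_solution_planes (hn : 3 ≤ n) (hA : -2 < A) (hB : -2 < B) (hp : 0 < p) (hq : 0 < q)
    (hc : ((n : ℝ) - 2) * (p * q - 1) < 2 * min (2 + A + (2 + B) * p) (2 + B + (2 + A) * q) ∨
      ((n : ℝ) - 2) * (p * q - 1) < max (2 + A + (2 + B) * p) (2 + B + (2 + A) * q)) :
    ¬ ∃ u v : EuclideanSpace ℝ (Fin n) → ℝ, Continuous u ∧ Continuous v ∧
      (∀ x, 0 < u x ∧ 0 < v x) ∧
      ∀ x ≠ 0, ContDiffAt ℝ 2 u x ∧ ContDiffAt ℝ 2 v x ∧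
        -Δ u x = ‖x‖ ^ A * v x ^ p ∧ -Δ v x = ‖x‖ ^ B * u x ^ q := by
  rintro ⟨u, v, hu, hv, hpos, h⟩
  have hs : Sol n A B p q u v := ⟨hu, hv, fun x => (hpos x).1, fun x => (hpos x).2,
    fun x hx => (h x (by simpa using hx)).1.contDiffWithinAt,
    fun x hx => (h x (by simpa using hx)).2.1.contDiffWithinAt,
    fun x hx => by rw [← laplacian_eq_lap (h x hx).1, ← (h x hx).2.2.1, neg_neg],
    fun x hx => by rw [← laplacian_eq_lap (h x hx).2.1, ← (h x hx).2.2.2, neg_neg]⟩
  rcases lt_or_ge 1 (p * q) with hpq | hpq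
  · rcases hc with hc | hc
    · exact not_sol_of_both hn hA hB hp hq hpq
        (hc.trans_le (mul_le_mul_of_nonneg_left (min_le_left _ _) zero_le_two))
        (hc.trans_le (mul_le_mul_of_nonneg_left (min_le_right _ _) zero_le_two)) hs
    · rcases lt_max_iff.1 hc with hc | hc
      · exact not_sol_of_large hn hA hB hp hq hpq hc hs
      · exact not_sol_of_large hn hB hA hq hp (by linarith) (by linarith) hs.swap
  · exact Sector.not_sol_of_le_one hn hA hB hp hq hpq hs

end Vale.Agent.P100.Planes
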