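import Vale.Agent.P100.Diag.Min

/-!
P100, moving spheres about the origin: the Euler field, the operator `-|x|²Δ + 2γ x·∇ + γ(n-2-γ)`
and their behaviour under the inversion `x ↦ λ² x/|x|²`.
-/

open Filter Topology Set Metric

namespace Vale.Agent.P100.Planes

open Vale.Agent.P100.Sys Vale.Agent.P100.Cmp Vale.Agent.P100.Wt

variable {n : ℕ} {l : ℝ} {x : EuclideanSpace ℝ (Fin n)} {f g : EuclideanSpace ℝ (Fin n) → ℝ}

/-- The derivative along `x`. -/
noncomputable def eul (f : EuclideanSpace ℝ (Fin n) → ℝ) (x : EuclideanSpace ℝ (Fin n)) : ℝ :=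
  ∑ i, x i * pd i f x

/-- The radial form of `-|x|^(γ+2) Δ (|x|^(-γ) f)`. -/
noncomputable def opr (γ : ℝ) (f : EuclideanSpace ℝ (Fin n) → ℝ) (x : EuclideanSpace ℝ (Fin n)) : ℝ :=
  -(‖x‖ ^ 2 * lap f x) + 2 * γ * eul f x + γ * ((n : ℝ) - 2 - γ) * f x

/-- The inversion about the sphere of radius `l`. -/
noncomputable def refl (l : ℝ) (x : EuclideanSpace ℝ (Fin n)) : EuclideanSpace ℝ (Fin n) :=
  (l ^ 2 * (‖x‖ ^ 2)⁻¹) • x

theorem norm_sq_ne (hx : x ≠ 0) : ‖x‖ ^ 2 ≠ 0 := pow_ne_zero 2 (norm_ne_zero_iff.2 hx)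

theorem norm_refl : ‖refl l x‖ = l ^ 2 / ‖x‖ := by
  rcases eq_or_ne x 0 with rfl | hx
  · simp [refl]
  rw [refl, norm_smul, Real.norm_eq_abs, abs_of_nonneg (by positivity)]
  field_simp [norm_ne_zero_iff.2 hx]

theorem refl_ne (hl : l ≠ 0) (hx : x ≠ 0) : refl l x ≠ 0 :=
  smul_ne_zero (mul_ne_zero (pow_ne_zero 2 hl) (inv_ne_zero (norm_sq_ne hx))) hx

theorem refl_apply (j : Fin n) : refl l x j = l ^ 2 * zc j x := by
  simp [refl, zc]
  ring

theorem hasFDerivAt_refl (l : ℝ) (hx : x ≠ 0) :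
    ∃ L : EuclideanSpace ℝ (Fin n) →L[ℝ] EuclideanSpace ℝ (Fin n),
      HasFDerivAt (refl l) L x ∧ ∀ i, L (EuclideanSpace.single i 1) =
        (l ^ 2 * (‖x‖ ^ 2)⁻¹) • EuclideanSpace.single i 1 +
          (-2 * l ^ 2 * (zc i x * (‖x‖ ^ 2)⁻¹)) • x := by
  have h0 := norm_sq_ne hx
  have hi := (((hasDerivAt_inv h0).comp_hasFDerivAt x
    (hasStrictFDerivAt_norm_sq x).hasFDerivAt).const_mul (l ^ 2))
  have h := hi.smul (hasFDerivAt_id x)
  refine ⟨_, h, fun i => ?_⟩
  simp [zc, EuclideanSpace.inner_single_right]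
  congr 1
  field_simp

theorem differentiableAt_refl (hx : x ≠ 0) : DifferentiableAt ℝ (refl l) x :=
  (hasFDerivAt_refl l hx).choose_spec.1.differentiableAt

theorem contDiffAt_refl (hx : x ≠ 0) : ContDiffAt ℝ 2 (refl l) x :=
  (contDiffAt_const.mul ((contDiff_norm_sq ℝ).contDiffAt.inv (norm_sq_ne hx))).smul contDiffAt_id

theorem sum_zc_pd :
    ∑ j, zc j x * pd j f x = (‖x‖ ^ 2)⁻¹ * eul f x := by
  rw [eul, Finset.mul_sum]
  exact Finset.sum_congr rfl fun j _ => by simp [zc]; ring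

/-- The chain rule along the inversion. -/
theorem pd_comp_refl (hx : x ≠ 0) (hF : DifferentiableAt ℝ f (refl l x)) (i : Fin n) :
    pd i (fun y => f (refl l y)) x = l ^ 2 * ((‖x‖ ^ 2)⁻¹ * pd i f (refl l x) -
      2 * zc i x * ∑ j, zc j x * pd j f (refl l x)) := by
  obtain ⟨L, hL, hLi⟩ := hasFDerivAt_refl l hx
  show fderiv ℝ (f ∘ refl l) x _ = _
  rw [(hF.hasFDerivAt.comp x hL).fderiv, ContinuousLinearMap.comp_apply, hLi, map_add, map_smul,
    map_smul]
  have e : fderiv ℝ f (refl l x) x = ∑ j, x j * pd j f (refl l x) := by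
    conv_lhs => arg 2; rw [← (EuclideanSpace.basisFun (Fin n) ℝ).sum_repr x]
    simp [pd]
  rw [e, show (∑ j, zc j x * pd j f (refl l x)) =
      (‖x‖ ^ 2)⁻¹ * ∑ j, x j * pd j f (refl l x) by
    rw [Finset.mul_sum]; exact Finset.sum_congr rfl fun j _ => by simp [zc]; ring]
  simp [pd]
  ring

theorem eul_comp_refl (hx : x ≠ 0) (hF : DifferentiableAt ℝ f (refl l x)) :
    eul (fun y => f (refl l y)) x = -eul f (refl l x) := by
  have h0 := norm_sq_ne hx
  set G : ℝ := ∑ j, zc j x * pd j f (refl l x) with hG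
  have e1 : ∑ i, x i * zc i x = 1 := by
    have : ∑ i, x i * x i = ‖x‖ ^ 2 := by
      rw [EuclideanSpace.norm_sq_eq]; simp [pow_two]
    calc ∑ i, x i * zc i x = (∑ i, x i * x i) * (‖x‖ ^ 2)⁻¹ := by
          rw [Finset.sum_mul]; exact Finset.sum_congr rfl fun i _ => by simp only [zc]; ring
      _ = 1 := by rw [this, mul_inv_cancel₀ h0]
  have e2 : ∑ i, x i * ((‖x‖ ^ 2)⁻¹ * pd i f (refl l x)) = G :=
    Finset.sum_congr rfl fun i _ => by simp [zc]; ring
  have e3 : eul f (refl l x) = l ^ 2 * G := by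
    rw [eul, hG, Finset.mul_sum]
    exact Finset.sum_congr rfl fun i _ => by rw [refl_apply]; ring
  rw [e3, eul]
  calc ∑ i, x i * pd i (fun y => f (refl l y)) x
      = ∑ i, (l ^ 2 * (x i * ((‖x‖ ^ 2)⁻¹ * pd i f (refl l x))) -
          l ^ 2 * 2 * G * (x i * zc i x)) :=
        Finset.sum_congr rfl fun i _ => by rw [pd_comp_refl hx hF, ← hG]; ring
    _ = -(l ^ 2 * G) := by
        rw [Finset.sum_sub_distrib, ← Finset.mul_sum, ← Finset.mul_sum, e1, e2]; ring

theorem pd_zc_all (hx : x ≠ 0) (i j : Fin n) :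
    pd i (zc j) x = (if i = j then (‖x‖ ^ 2)⁻¹ else 0) - 2 * (zc i x * zc j x) := by
  have h0 := norm_sq_ne hx
  have hp := (EuclideanSpace.proj (𝕜 := ℝ) j).hasFDerivAt (x := x)
  have hi := (hasDerivAt_inv h0).comp_hasFDerivAt x (hasStrictFDerivAt_norm_sq x).hasFDerivAt
  show fderiv ℝ (fun y : EuclideanSpace ℝ (Fin n) => y j * (‖y‖ ^ 2)⁻¹) x _ = _
  rw [show fderiv ℝ (fun y : EuclideanSpace ℝ (Fin n) => y j * (‖y‖ ^ 2)⁻¹) x = _ from
    (hp.mul hi).fderiv]
  simp [zc, EuclideanSpace.inner_single_right, eq_comm]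
  split_ifs <;> field_simp <;> ring

theorem pd_inv_sq (hx : x ≠ 0) (i : Fin n) :
    pd i (fun y : EuclideanSpace ℝ (Fin n) => (‖y‖ ^ 2)⁻¹) x = -2 * (‖x‖ ^ 2)⁻¹ * zc i x := by
  have h0 := norm_sq_ne hx
  show fderiv ℝ _ x _ = _
  rw [show fderiv ℝ (fun y : EuclideanSpace ℝ (Fin n) => (‖y‖ ^ 2)⁻¹) x = _ from
    ((hasDerivAt_inv h0).comp_hasFDerivAt x (hasStrictFDerivAt_norm_sq x).hasFDerivAt).fderiv]
  simp [zc, EuclideanSpace.inner_single_right]
  field_simp

/-- The Laplacian along the inversion. -/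
theorem lap_comp_refl (hl : l ≠ 0) (hx : x ≠ 0) (hF : ContDiffAt ℝ 2 f (refl l x)) :
    ‖x‖ ^ 2 * lap (fun y => f (refl l y)) x =
      ‖refl l x‖ ^ 2 * lap f (refl l x) - 2 * ((n : ℝ) - 2) * eul f (refl l x) := by
  have h0 := norm_sq_ne hx
  set s : ℝ := (‖x‖ ^ 2)⁻¹ with hs
  set F : Fin n → ℝ := fun j => pd j f (refl l x) with hFdef
  set H : Fin n → Fin n → ℝ := fun j k => pd k (pd j f) (refl l x) with hH
  set G : ℝ := ∑ j, zc j x * F j with hG
  have hd : ∀ j, DifferentiableAt ℝ (pd j f) (refl l x) := fun j => differentiableAt_pd hF j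
  have hdc : ∀ j, DifferentiableAt ℝ (fun y => pd j f (refl l y)) x := fun j =>
    (hd j).comp x (differentiableAt_refl hx)
  have hz : ∀ j : Fin n, DifferentiableAt ℝ (zc j) x := fun j =>
    ((contDiffOn_zc (k := 1) j).contDiffAt
      (isOpen_compl_singleton.mem_nhds hx)).differentiableAt (by norm_num)
  have hS : DifferentiableAt ℝ (fun y : EuclideanSpace ℝ (Fin n) => (‖y‖ ^ 2)⁻¹) x :=
    (differentiableAt_id.norm_sq ℝ).fun_inv h0
  have hGd : DifferentiableAt ℝ (fun y => ∑ j, zc j y * pd j f (refl l y)) x :=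
    DifferentiableAt.fun_sum fun j _ => (hz j).mul (hdc j)
  have hev : ∀ i, (fun y => pd i (fun y => f (refl l y)) y) =ᶠ[𝓝 x] fun y =>
      l ^ 2 * ((‖y‖ ^ 2)⁻¹ * pd i f (refl l y) -
        2 * (zc i y * ∑ j, zc j y * pd j f (refl l y))) := fun i => by
    filter_upwards [isOpen_compl_singleton.eventually_mem hx,
      (contDiffAt_refl (l := l) hx).continuousAt.eventually (hF.eventually (by simp))] with y hy hy'
    rw [pd_comp_refl hy (hy'.differentiableAt (by norm_num))]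
    ring
  set M : Fin n → Fin n → ℝ := fun j i =>
    l ^ 2 * (s * H j i - 2 * zc i x * ∑ k, zc k x * H j k) with hM
  have hT : ∀ i j, pd i (fun y => pd j f (refl l y)) x = M j i := fun i j => pd_comp_refl hx (hd j) i
  have hdG : ∀ i, pd i (fun y => ∑ j, zc j y * pd j f (refl l y)) x =
      s * F i - 2 * zc i x * G + ∑ j, zc j x * M j i := fun i => by
    rw [pd_sum Finset.univ (A := fun j y => zc j y * pd j f (refl l y)) fun j _ => (hz j).mul (hdc j)]
    calc ∑ j, pd i (fun y => zc j y * pd j f (refl l y)) x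
        = ∑ j, ((if i = j then s * F j else 0) - 2 * zc i x * (zc j x * F j) + zc j x * M j i) :=
          Finset.sum_congr rfl fun j _ => by
            rw [pd_mul (hz j) (hdc j), hT, pd_zc_all hx, ← hs]
            split_ifs <;> simp only [hFdef] <;> ring
      _ = _ := by
          rw [Finset.sum_add_distrib, Finset.sum_sub_distrib, Finset.sum_ite_eq,
            ← Finset.mul_sum, if_pos (Finset.mem_univ i)]
  have e2 : ∀ i, pd i (pd i fun y => f (refl l y)) x = l ^ 2 *
      ((-2 * s * (zc i x * F i) + s * M i i) - 2 * ((pd i (zc i) x) * G +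
        (s * (zc i x * F i) - 2 * G * (zc i x * zc i x) + zc i x * ∑ j, zc j x * M j i))) := fun i => by
    have a1 : DifferentiableAt ℝ
        (fun y : EuclideanSpace ℝ (Fin n) => (‖y‖ ^ 2)⁻¹ * pd i f (refl l y)) x := hS.mul (hdc i)
    have a2 : DifferentiableAt ℝ (fun y => zc i y * ∑ j, zc j y * pd j f (refl l y)) x :=
      (hz i).mul hGd
    have a3 : DifferentiableAt ℝ (fun y => 2 * (zc i y * ∑ j, zc j y * pd j f (refl l y))) x :=
      a2.const_mul 2
    rw [pd_congr (hev i) i, pd_const_mul (a1.fun_sub a3), pd_sub a1 a3,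
      pd_mul hS (hdc i), pd_const_mul a2, pd_mul (hz i) hGd, hT, hdG, pd_inv_sq hx,
      ← hs, ← hG]
    simp only [hFdef]
    ring
  have hMt : ∑ i, M i i = l ^ 2 * (s * ∑ i, H i i - 2 * ∑ i, zc i x * ∑ k, zc k x * H i k) := by
    simp only [hM]
    rw [← Finset.mul_sum, Finset.sum_sub_distrib, ← Finset.mul_sum]
    congr 2
    rw [Finset.mul_sum]
    exact Finset.sum_congr rfl fun i _ => by ring
  have hMz : ∑ i, zc i x * ∑ j, zc j x * M j i =
      -(l ^ 2 * s) * ∑ i, zc i x * ∑ k, zc k x * H i k := by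
    rw [show (∑ i, zc i x * ∑ j, zc j x * M j i) = ∑ j, zc j x * ∑ i, zc i x * M j i by
      simp only [Finset.mul_sum]; rw [Finset.sum_comm]
      exact Finset.sum_congr rfl fun j _ => Finset.sum_congr rfl fun i _ => by ring]
    rw [Finset.mul_sum]
    refine Finset.sum_congr rfl fun j _ => ?_
    have : ∑ i, zc i x * M j i = -(l ^ 2 * s) * ∑ k, zc k x * H j k := by
      calc ∑ i, zc i x * M j i = ∑ i, (l ^ 2 * s * (zc i x * H j i) -
            l ^ 2 * 2 * (∑ k, zc k x * H j k) * (zc i x * zc i x)) :=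
            Finset.sum_congr rfl fun i _ => by simp only [hM]; ring
        _ = _ := by
          rw [Finset.sum_sub_distrib, ← Finset.mul_sum, ← Finset.mul_sum, sum_zc_sq hx, ← hs]
          ring
    rw [this]
    ring
  have eL : lap f (refl l x) = ∑ i, H i i := rfl
  have eE : eul f (refl l x) = l ^ 2 * G := by
    rw [eul, hG, Finset.mul_sum]
    exact Finset.sum_congr rfl fun i _ => by rw [refl_apply]; ring
  have hsum : lap (fun y => f (refl l y)) x = l ^ 2 *
      ((-2 * s * G + s * ∑ i, M i i) - 2 * ((∑ i, pd i (zc i) x) * G +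
        (s * G - 2 * G * s + ∑ i, zc i x * ∑ j, zc j x * M j i))) := by
    simp only [lap, e2]
    rw [← Finset.mul_sum, Finset.sum_sub_distrib, ← Finset.mul_sum, Finset.sum_add_distrib,
      Finset.sum_add_distrib, Finset.sum_add_distrib, Finset.sum_sub_distrib]
    simp only [← Finset.mul_sum, ← Finset.sum_mul, sum_zc_sq hx]
    rfl
  rw [hsum, hMt, hMz, sum_pd_zc hx, sum_zc_sq hx, ← hs, eL, eE, norm_refl, div_pow]
  have hs2 : ‖x‖ ^ 2 = s⁻¹ := by rw [hs, inv_inv]
  have hs0 : s ≠ 0 := inv_ne_zero h0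
  rw [hs2]
  field_simp
  ring

/-- The operator along the inversion. -/
theorem opr_comp_refl (hl : l ≠ 0) (hx : x ≠ 0) (hF : ContDiffAt ℝ 2 f (refl l x)) (γ : ℝ) :
    opr ((n : ℝ) - 2 - γ) (fun y => f (refl l y)) x = opr γ f (refl l x) := by
  simp only [opr, lap_comp_refl hl hx hF,
    eul_comp_refl hx (hF.differentiableAt (by norm_num))]
  ring

theorem opr_sub (hf : ContDiffAt ℝ 2 f x) (hg : ContDiffAt ℝ 2 g x) (γ c : ℝ) :
    opr γ (fun y => f y - c * g y) x = opr γ f x - c * opr γ g x := by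
  have e : eul (fun y => f y - c * g y) x = eul f x - c * eul g x := by
    simp only [eul, Finset.mul_sum, ← Finset.sum_sub_distrib]
    exact Finset.sum_congr rfl fun i _ => by
      rw [pd_sub (hf.differentiableAt (by norm_num)) ((hg.differentiableAt (by norm_num)).const_mul c),
        pd_const_mul (hg.differentiableAt (by norm_num))]
      ring
  simp only [opr, e, lap_sub_const_mul hf hg]
  ring

/-- The operator on a product with a power of `|x|`. -/
theorem opr_rw'_mul (hx : x ≠ 0) (hg : ContDiffAt ℝ 2 g x) (γ s : ℝ) :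
    opr γ (fun y => rw' s y * g y) x = rw' s x * ((γ - s) * ((n : ℝ) - 2 - γ + s) * g x +
      2 * (γ - s) * eul g x - ‖x‖ ^ 2 * lap g x) := by
  have h0 := norm_sq_ne hx
  have hn : ({0}ᶜ : Set (EuclideanSpace ℝ (Fin n))) ∈ 𝓝 x := isOpen_compl_singleton.mem_nhds hx
  have hr : ContDiffAt ℝ 2 (rw' s) x := (contDiffOn_rw' s).contDiffAt hn
  have d1 : DifferentiableAt ℝ (rw' s) x := hr.differentiableAt (by norm_num)
  have d2 : ∀ i, DifferentiableAt ℝ (zc (n := n) i) x := fun i =>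
    ((contDiffOn_zc (k := 1) i).contDiffAt hn).differentiableAt (by norm_num)
  have e1 : lap (rw' s) x = s * (s + n - 2) * (rw' s x * (‖x‖ ^ 2)⁻¹) := by
    have e : ∀ i, pd i (pd i (rw' s)) x =
        s * rw' s x * (pd i (zc i) x + s * (zc i x * zc i x)) := fun i => by
      rw [pd_congr (eventually_of_mem hn fun y hy => pd_rw' s hy i) i,
        pd_mul (d1.const_mul s) (d2 i), pd_const_mul d1, pd_rw' s hx i]
      ring
    simp only [lap, e, ← Finset.mul_sum, Finset.sum_add_distrib, sum_pd_zc hx, sum_zc_sq hx]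
    ring
  have ez : ∑ i, zc i x * pd i g x = (‖x‖ ^ 2)⁻¹ * eul g x := sum_zc_pd
  have e2 : ∑ i, pd i (rw' s) x * pd i g x = s * rw' s x * ((‖x‖ ^ 2)⁻¹ * eul g x) := by
    rw [← ez, Finset.mul_sum]
    exact Finset.sum_congr rfl fun i _ => by rw [pd_rw' s hx]; ring
  have e3 : eul (fun y => rw' s y * g y) x = rw' s x * (eul g x + s * g x) := by
    have hz : ∑ i, x i * zc i x = 1 := by
      have : ∑ i, x i * x i = ‖x‖ ^ 2 := by rw [EuclideanSpace.norm_sq_eq]; simp [pow_two]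
      calc ∑ i, x i * zc i x = (∑ i, x i * x i) * (‖x‖ ^ 2)⁻¹ := by
            rw [Finset.sum_mul]; exact Finset.sum_congr rfl fun i _ => by simp only [zc]; ring
        _ = 1 := by rw [this, mul_inv_cancel₀ h0]
    calc eul (fun y => rw' s y * g y) x
        = ∑ i, (rw' s x * (x i * pd i g x) + rw' s x * s * g x * (x i * zc i x)) :=
          Finset.sum_congr rfl fun i _ => by
            rw [pd_mul d1 (hg.differentiableAt (by norm_num)), pd_rw' s hx]; ring
      _ = _ := by rw [Finset.sum_add_distrib, ← Finset.mul_sum, ← Finset.mul_sum, hz, eul]; ring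
  simp only [opr, e3, lap_mul hr hg, e1, e2]
  field_simp
  ring

theorem eul_eq_zero_of_min (h : IsLocalMin f x) : eul f x = 0 :=
  Finset.sum_eq_zero fun i _ => by simp [pd, h.fderiv_eq_zero]

/-- A positive operator excludes an interior negative minimum. -/
theorem opr_le_of_min (hf : ContDiffAt ℝ 2 f x) (h : IsLocalMin f x) (γ : ℝ) :
    opr γ f x ≤ γ * ((n : ℝ) - 2 - γ) * f x := by
  have h1 := mul_nonneg (sq_nonneg ‖x‖) (Diag.lap_nonneg_of_isLocalMin hf h)
  simp only [opr, eul_eq_zero_of_min h, mul_zero]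
  linarith

/-- The derivative along a ray. -/
theorem hasDerivAt_ray {t : ℝ} (ht : t ≠ 0) (hf : DifferentiableAt ℝ f (t • x)) :
    HasDerivAt (fun t : ℝ => f (t • x)) (t⁻¹ * eul f (t • x)) t := by
  have h := hf.hasFDerivAt.comp_hasDerivAt t ((hasDerivAt_id t).smul_const x)
  refine h.congr_deriv ?_
  simp only [one_smul]
  have e : fderiv ℝ f (t • x) x = ∑ j, x j * pd j f (t • x) := by
    conv_lhs => arg 2; rw [← (EuclideanSpace.basisFun (Fin n) ℝ).sum_repr x]
    simp [pd]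
  rw [e, eul, Finset.mul_sum]
  refine Finset.sum_congr rfl fun j _ => ?_
  simp only [PiLp.smul_apply, smul_eq_mul]
  field_simp

end Vale.Agent.P100.Planes
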