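import Vale.Agent.P100.Planes.Op

/-!
P100, moving spheres about the origin: the spheres move from radius zero to infinity, so `|x|^g u`
and `|x|^h v` increase along every ray.
-/

open Filter Topology Set Metric

namespace Vale.Agent.P100.Planes

open Vale.Agent.P100.Sys Vale.Agent.P100.Cmp Vale.Agent.P100.Wt
open Vale.Agent.P100.Sector (Sol)

variable {n : ℕ} {A B p q g h l : ℝ} {u v : EuclideanSpace ℝ (Fin n) → ℝ}
  {x : EuclideanSpace ℝ (Fin n)}

/-- The reflection in the sphere of radius `l` does not decrease `|x|^g u` inside. -/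
def Good (g : ℝ) (u : EuclideanSpace ℝ (Fin n) → ℝ) (l : ℝ) : Prop :=
  ∀ x : EuclideanSpace ℝ (Fin n), x ≠ 0 → ‖x‖ ≤ l → 0 ≤ gap l g u x

/-- Both components are increasing along the rays close to the origin, where the coupling is small. -/
structure Start (n : ℕ) (A p g h : ℝ) (u v : EuclideanSpace ℝ (Fin n) → ℝ) (r₀ : ℝ) : Prop where
  mono : ∀ x : EuclideanSpace ℝ (Fin n), x ≠ 0 → ‖x‖ ≤ r₀ → 0 ≤ eul (wgt g u) x
  small : ∀ x : EuclideanSpace ℝ (Fin n), x ≠ 0 → ‖x‖ ≤ r₀ →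
    max 1 p * ‖x‖ ^ (2 + A) * v x ^ (p - 1) ≤ ((((n : ℝ) - 2) / 2) ^ 2 - (g - h) ^ 2) / 2

theorem refl_eq_smul (t : ℝ) (ht : t ≠ 0) (hx : x ≠ 0) :
    refl (Real.sqrt |t| * ‖x‖) (t • x) = (|t| / t) • x := by
  rw [refl, smul_smul, norm_smul, Real.norm_eq_abs, mul_pow, mul_pow, Real.sq_sqrt (abs_nonneg t)]
  congr 1
  field_simp [norm_ne_zero_iff.2 hx, abs_ne_zero.2 ht]
  exact (sq_abs t).symm

theorem refl_self (hx : x ≠ 0) : refl ‖x‖ x = x := by
  rw [refl, mul_inv_cancel₀ (norm_sq_ne hx), one_smul]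

theorem gap_self (hx : x ≠ 0) : gap ‖x‖ g u x = 0 := by rw [gap, refl_self hx, sub_self]

theorem continuousAt_wgt (hu : ContDiffOn ℝ 2 u {0}ᶜ) (hx : x ≠ 0) : ContinuousAt (wgt g u) x :=
  (contDiffAt_wgt hu hx g).continuousAt

theorem continuousAt_gap₂ (hu : ContDiffOn ℝ 2 u {0}ᶜ) (hl : l ≠ 0) (hx : x ≠ 0) :
    ContinuousAt (fun z : ℝ × EuclideanSpace ℝ (Fin n) => gap z.1 g u z.2) (l, x) := by
  have hr : ContinuousAt (fun z : ℝ × EuclideanSpace ℝ (Fin n) => refl z.1 z.2) (l, x) :=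
    ((continuousAt_fst.pow 2).mul ((continuousAt_snd.norm.pow 2).inv₀ (norm_sq_ne hx))).smul
      continuousAt_snd
  exact (ContinuousAt.comp_of_eq (continuousAt_wgt hu (refl_ne hl hx)) hr rfl).sub
    (ContinuousAt.comp_of_eq (continuousAt_wgt hu hx) continuousAt_snd rfl)

theorem continuousOn_eul {f : EuclideanSpace ℝ (Fin n) → ℝ} (hf : ContDiffOn ℝ 2 f {0}ᶜ) :
    ContinuousOn (eul f) {0}ᶜ :=
  continuousOn_finsetSum _ fun i _ => (EuclideanSpace.proj (𝕜 := ℝ) i).continuous.continuousOn.mul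
    (continuousOn_pd isOpen_compl_singleton hf (by norm_num) i)

/-- Monotonicity along a ray. -/
theorem le_of_eul {f : EuclideanSpace ℝ (Fin n) → ℝ} (hf : ContDiffOn ℝ 2 f {0}ᶜ) (hx : x ≠ 0)
    {c : ℝ} (hc : 1 ≤ c) (h : ∀ y, ‖x‖ ≤ ‖y‖ → ‖y‖ ≤ c * ‖x‖ → 0 ≤ eul f y) : f x ≤ f (c • x) := by
  have hne : ∀ t ∈ Icc 1 c, t • x ≠ 0 := fun t ht => smul_ne_zero (by linarith [ht.1]) hx
  have hd : ∀ t ∈ Icc 1 c, HasDerivAt (fun t : ℝ => f (t • x)) (t⁻¹ * eul f (t • x)) t :=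
    fun t ht => hasDerivAt_ray (by linarith [ht.1]) ((hf.contDiffAt
      (isOpen_compl_singleton.mem_nhds (hne t ht))).differentiableAt (by norm_num))
  have hm : MonotoneOn (fun t : ℝ => f (t • x)) (Icc 1 c) := by
    refine monotoneOn_of_hasDerivWithinAt_nonneg (convex_Icc 1 c)
      (fun t ht => (hd t ht).continuousAt.continuousWithinAt)
      (fun t ht => (hd t (interior_subset ht)).hasDerivWithinAt) fun t ht => ?_
    have ht' := interior_subset ht
    refine mul_nonneg (by linarith [inv_nonneg.2 (zero_le_one.trans ht'.1)]) ?_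
    have e : ‖t • x‖ = t * ‖x‖ := by
      rw [norm_smul, Real.norm_eq_abs, abs_of_nonneg (zero_le_one.trans ht'.1)]
    refine h _ ?_ ?_ <;> rw [e]
    · exact le_mul_of_one_le_left (norm_nonneg x) ht'.1
    · exact mul_le_mul_of_nonneg_right ht'.2 (norm_nonneg x)
  simpa using hm (left_mem_Icc.2 hc) (right_mem_Icc.2 hc) hc

/-- Where `eul` is nonnegative between a point and its reflection, the difference is nonnegative. -/
theorem gap_nonneg_of_eul (hu : ContDiffOn ℝ 2 u {0}ᶜ) (hx : x ≠ 0) (hxl : ‖x‖ ≤ l)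
    (h : ∀ y, ‖x‖ ≤ ‖y‖ → ‖y‖ ≤ l ^ 2 / ‖x‖ → 0 ≤ eul (wgt g u) y) : 0 ≤ gap l g u x := by
  have hx0 := norm_pos_iff.2 hx
  refine sub_nonneg.2 (le_of_eul (fun y hy => (contDiffAt_wgt hu hy g).contDiffWithinAt) hx ?_
    fun y h1 h2 => h y h1 (h2.trans_eq ?_))
  · rw [← div_eq_mul_inv, one_le_div (by positivity)]
    exact pow_le_pow_left₀ hx0.le hxl 2
  · field_simp

/-- A function on a punctured ball, nonnegative on the sphere and almost nonnegative near the
origin, takes its negative values' minimum inside. -/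
theorem exists_neg_min {f : EuclideanSpace ℝ (Fin n) → ℝ} {r : ℝ}
    (hc : ∀ y : EuclideanSpace ℝ (Fin n), y ≠ 0 → ‖y‖ ≤ r → ContinuousAt f y)
    (hb : ∀ y : EuclideanSpace ℝ (Fin n), ‖y‖ = r → 0 ≤ f y)
    (hlow : ∀ ε > 0, ∀ᶠ y in 𝓝[≠] (0 : EuclideanSpace ℝ (Fin n)), -ε < f y)
    {z : EuclideanSpace ℝ (Fin n)} (hz : z ≠ 0) (hzr : ‖z‖ ≤ r) (hneg : f z < 0) :
    ∃ y, y ≠ 0 ∧ ‖y‖ ≤ r ∧ f y < 0 ∧ IsLocalMin f y ∧
      ∀ y', y' ≠ 0 → ‖y'‖ ≤ r → f y ≤ f y' := by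
  obtain ⟨δ, hδ, hδ'⟩ := Metric.eventually_nhds_iff.1
    (eventually_nhdsWithin_iff.1 (hlow (-f z) (neg_pos.2 hneg)))
  set δ' : ℝ := min δ ‖z‖
  have hδ'0 : 0 < δ' := lt_min hδ (norm_pos_iff.2 hz)
  set K : Set (EuclideanSpace ℝ (Fin n)) := closedBall 0 r \ ball 0 δ' with hK
  have hzK : z ∈ K := by simp [hK, hzr, δ']
  have hne : ∀ y ∈ K, y ≠ 0 := by
    rintro y hy rfl
    exact hy.2 (mem_ball_self hδ'0)
  obtain ⟨y, hy, hmin⟩ := ((isCompact_closedBall (0 : EuclideanSpace ℝ (Fin n)) r).diff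
    isOpen_ball).exists_isMinOn ⟨z, hzK⟩
    fun y hy => (hc y (hne y hy) (by simpa using hy.1)).continuousWithinAt
  have hyr : ‖y‖ ≤ r := by simpa using hy.1
  have hfy : f y < 0 := (hmin hzK).trans_lt hneg
  have hall : ∀ y', y' ≠ 0 → ‖y'‖ ≤ r → f y ≤ f y' := fun y' h1 h2 => by
    by_cases h3 : ‖y'‖ < δ'
    · have := hδ' (show dist y' 0 < δ by rw [dist_zero_right]; exact h3.trans_le (min_le_left _ _)) h1
      rw [neg_neg] at this
      exact (hmin hzK).trans this.le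
    · exact hmin ⟨by simpa using h2, by simpa using h3⟩
  have hlt : ‖y‖ < r := lt_of_le_of_ne hyr fun e => absurd (hb y e) (not_le.2 hfy)
  refine ⟨y, hne y hy, hyr, hfy, ?_, hall⟩
  filter_upwards [isOpen_compl_singleton.mem_nhds
    (show y ∈ ({0}ᶜ : Set (EuclideanSpace ℝ (Fin n))) from hne y hy),
    (isOpen_lt continuous_norm continuous_const).mem_nhds hlt] with y' h1 h2
  exact hall y' h1 (le_of_lt h2)

theorem low_near_zero (hu : Continuous u) (hu0 : ∀ y, 0 < u y) {s : ℝ} (hs : 0 < s + g) :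
    ∀ ε > 0, ∀ᶠ y in 𝓝[≠] (0 : EuclideanSpace ℝ (Fin n)), -ε < rw' s y * gap l g u y := by
  intro ε hε
  have ht : Tendsto (fun y : EuclideanSpace ℝ (Fin n) => ‖y‖ ^ (s + g) * u y) (𝓝 0) (𝓝 0) := by
    refine ((continuous_norm.rpow_const fun _ => Or.inr hs.le).mul hu).tendsto' 0 0 ?_
    simp [Real.zero_rpow hs.ne']
  filter_upwards [nhdsWithin_le_nhds (ht.eventually_lt_const hε), self_mem_nhdsWithin] with y hy hy0
  have hy0' : y ≠ 0 := hy0
  have e : rw' s y * wgt g u y = ‖y‖ ^ (s + g) * u y := by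
    rw [wgt, ← mul_assoc, rw'_mul _ _ hy0', rw'_eq]
  have h1 : 0 ≤ rw' s y * wgt g u (refl l y) := by
    refine mul_nonneg (rw'_pos s hy0').le ?_
    rw [wgt, rw'_eq]
    exact mul_nonneg (Real.rpow_nonneg (norm_nonneg _) _) (hu0 _).le
  rw [gap, mul_sub, e]
  linarith

/-- The inner ball: both differences are nonnegative. -/
theorem Frame.inner (F : Frame n A B p q g h u v) {r₀ r : ℝ} (S : Start n A p g h u v r₀)
    (S' : Start n B q h g v u r₀) (hl : 0 < l) (hr0 : r ≤ r₀) (hrl : r ≤ l)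
    (hbu : ∀ y : EuclideanSpace ℝ (Fin n), y ≠ 0 → ‖y‖ = r → 0 ≤ gap l g u y)
    (hbv : ∀ y : EuclideanSpace ℝ (Fin n), y ≠ 0 → ‖y‖ = r → 0 ≤ gap l h v y) :
    ∀ x : EuclideanSpace ℝ (Fin n), x ≠ 0 → ‖x‖ ≤ r → 0 ≤ gap l g u x := by
  intro x₀ hx₀ hx₀r
  by_contra hneg
  rw [not_le] at hneg
  have hr : 0 < r := (norm_pos_iff.2 hx₀).trans_le hx₀r
  set a : ℝ := ((n : ℝ) - 2) / 2 with ha
  set k : ℝ := a ^ 2 - (g - h) ^ 2 with hk
  have := F.g_low
  have := F.g_high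
  have := F.h_low
  have := F.h_high
  have hk0 : 0 < k := by
    rw [hk, sq_sub_sq]
    exact mul_pos (by linarith) (by linarith)
  set f₁ : EuclideanSpace ℝ (Fin n) → ℝ := fun y => rw' (h - a) y * gap l g u y with hf₁
  set f₂ : EuclideanSpace ℝ (Fin n) → ℝ := fun y => rw' (g - a) y * gap l h v y with hf₂
  have hc : ∀ (s e : ℝ) (w : EuclideanSpace ℝ (Fin n) → ℝ), ContDiffOn ℝ 2 w {0}ᶜ →
      ∀ y : EuclideanSpace ℝ (Fin n), y ≠ 0 → ‖y‖ ≤ r →
        ContinuousAt (fun y => rw' s y * gap l e w y) y := fun s e w hw y hy _ =>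
    (((contDiffOn_rw' (k := 2) s).contDiffAt (isOpen_compl_singleton.mem_nhds hy)).mul
      (contDiffAt_gap hw hl.ne' hy e)).continuousAt
  have hbd : ∀ (s e : ℝ) (w : EuclideanSpace ℝ (Fin n) → ℝ),
      (∀ y : EuclideanSpace ℝ (Fin n), y ≠ 0 → ‖y‖ = r → 0 ≤ gap l e w y) →
      ∀ y : EuclideanSpace ℝ (Fin n), ‖y‖ = r → 0 ≤ rw' s y * gap l e w y := fun s e w hw y hy =>
    have hy0 : y ≠ 0 := norm_pos_iff.1 (hy ▸ hr)
    mul_nonneg (rw'_pos s hy0).le (hw y hy0 hy)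
  obtain ⟨x₁, h1, h1r, h1n, h1m, h1all⟩ := exists_neg_min (f := f₁) (hc _ g u F.sol.smoothu)
    (hbd _ g u hbu) (low_near_zero F.sol.contu F.sol.posu (by linarith)) hx₀ hx₀r
    (mul_neg_of_pos_of_neg (rw'_pos _ hx₀) hneg)
  have a1 := (F.step hl h1 (h1r.trans hrl) (S.mono x₁ h1 (h1r.trans hr0)) h1m).trans
    (mul_le_mul_of_nonneg_right (S.small x₁ h1 (h1r.trans hr0)) (le_max_left _ _))
  rw [← ha, ← hk] at a1
  have h2n : f₂ x₁ < 0 := by
    by_contra h2
    rw [not_lt] at h2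
    rw [max_eq_left (neg_nonpos.2 h2), mul_zero] at a1
    nlinarith [show f₁ x₁ < 0 from h1n]
  obtain ⟨x₂, h2, h2r, h2neg, h2m, h2all⟩ := exists_neg_min (f := f₂) (hc _ h v F.sol.smoothv)
    (hbd _ h v hbv) (low_near_zero F.sol.contv F.sol.posv (by linarith)) h1 h1r h2n
  have a2 := (F.swap.step hl h2 (h2r.trans hrl) (S'.mono x₂ h2 (h2r.trans hr0)) h2m).trans
    (mul_le_mul_of_nonneg_right (S'.small x₂ h2 (h2r.trans hr0)) (le_max_left _ _))
  rw [show (h - g) ^ 2 = (g - h) ^ 2 by ring, ← ha, ← hk] at a2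
  have m1 : max 0 (-f₂ x₁) ≤ -f₂ x₂ := max_le (by linarith) (neg_le_neg (h2all x₁ h1 h1r))
  have m2 : max 0 (-f₁ x₂) ≤ -f₁ x₁ := max_le (by linarith) (neg_le_neg (h1all x₂ h2 h2r))
  have c1 := mul_le_mul_of_nonneg_left m1 (by linarith : 0 ≤ k / 2)
  have c2 := mul_le_mul_of_nonneg_left m2 (by linarith : 0 ≤ k / 2)
  simp only [hf₁, hf₂] at a1 a2 c1 c2 h1n
  nlinarith

/-- Monotonicity up to the radius to which the spheres have moved. -/
theorem eul_nonneg_of_good (hu : ContDiffOn ℝ 2 u {0}ᶜ) {L : ℝ}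
    (hgood : ∀ ν, 0 < ν → ν ≤ L → Good g u ν) (hx : x ≠ 0) (hxL : ‖x‖ ≤ L) :
    0 ≤ eul (wgt g u) x := by
  have hd : HasDerivAt (fun t : ℝ => wgt g u (t • x)) (eul (wgt g u) x) 1 := by
    simpa using hasDerivAt_ray (f := wgt g u) (x := x) one_ne_zero
      ((contDiffAt_wgt hu (by simpa using hx) g).differentiableAt (by norm_num))
  refine ge_of_tendsto
    (hasDerivAt_iff_tendsto_slope.1 hd |>.mono_left (nhdsWithin_mono (1 : ℝ) (fun t (ht : t ∈ Iio (1 : ℝ)) => ne_of_lt (mem_Iio.1 ht)))) ?_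
  filter_upwards [Ioo_mem_nhdsLT (show (1 / 2 : ℝ) < 1 by norm_num)] with t ht
  have ht0 : 0 < t := by linarith [ht.1]
  have hs : Real.sqrt |t| ≤ 1 := by rw [Real.sqrt_le_one, abs_of_pos ht0]; exact ht.2.le
  have hts : t ≤ Real.sqrt |t| := by
    rw [abs_of_pos ht0]
    exact Real.le_sqrt_of_sq_le (by nlinarith [ht.2])
  have hgap := hgood (Real.sqrt |t| * ‖x‖)
    (mul_pos (Real.sqrt_pos.2 (abs_pos.2 ht0.ne')) (norm_pos_iff.2 hx))
    ((mul_le_of_le_one_left (norm_nonneg x) hs).trans hxL) (t • x) (smul_ne_zero ht0.ne' hx) (by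
      rw [norm_smul, Real.norm_eq_abs, abs_of_pos ht0]
      rw [abs_of_pos ht0] at hts
      exact mul_le_mul_of_nonneg_right hts (norm_nonneg x))
  rw [gap, refl_eq_smul t ht0.ne' hx, abs_of_pos ht0, div_self ht0.ne', one_smul] at hgap
  rw [slope_def_field, one_smul]
  exact div_nonneg_of_nonpos (by linarith) (by linarith [ht.2])

/-- Strict monotonicity on the last sphere. -/
theorem Frame.hopf (F : Frame n A B p q g h u v) {L : ℝ} (hL : 0 < L) (hg : Good g u L)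
    (hh : Good h v L) (he : ∀ y : EuclideanSpace ℝ (Fin n), y ≠ 0 → ‖y‖ ≤ L → 0 ≤ eul (wgt g u) y)
    (hxL : ‖x‖ = L) : 0 < eul (wgt g u) x := by
  have hn3 : (3 : ℝ) ≤ n := by exact_mod_cast F.hn
  have := F.g_low
  have := F.g_high
  have hx : x ≠ 0 := norm_pos_iff.1 (hxL ▸ hL)
  set γ : ℝ := (n : ℝ) - 2 - g with hγ
  set K : Set (EuclideanSpace ℝ (Fin n)) := closedBall 0 L \ ball 0 (L / 2) with hK
  have hmemK : ∀ y, y ∈ K ↔ L / 2 ≤ ‖y‖ ∧ ‖y‖ ≤ L := fun y => by simp [hK, and_comm]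
  have hne : ∀ y ∈ K, y ≠ 0 := fun y hy => norm_pos_iff.1 (by linarith [((hmemK y).1 hy).1])
  have hsph : (sphere (0 : EuclideanSpace ℝ (Fin n)) (L / 2)).Nonempty :=
    ⟨(1 / 2 : ℝ) • x, by simp [norm_smul, hxL]; ring⟩
  obtain ⟨xm, hxm, hxm'⟩ := (isCompact_sphere _ _).exists_isMinOn hsph fun y hy =>
    (contDiffAt_gap F.sol.smoothu hL.ne' (ne_zero_of_mem_sphere (by linarith) ⟨y, hy⟩) g
      ).continuousAt.continuousWithinAt
  have hxm0 : ‖xm‖ = L / 2 := by simpa using hxm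
  have hm : 0 < gap L g u xm := F.gap_pos hL hg hh
    (he xm (ne_zero_of_mem_sphere (by linarith) ⟨xm, hxm⟩) (by linarith))
    (ne_zero_of_mem_sphere (by linarith) ⟨xm, hxm⟩) (by linarith)
  set C : ℝ := (L / 2) ^ (-(n : ℝ)) - L ^ (-(n : ℝ)) with hC
  have hC0 : 0 < C := sub_pos.2 (Real.rpow_lt_rpow_of_neg (by linarith) (by linarith) (by linarith))
  set κ : ℝ := gap L g u xm / C with hκ
  have hκ0 : 0 < κ := div_pos hm hC0
  set φ : EuclideanSpace ℝ (Fin n) → ℝ := fun y => rw' (-(n : ℝ)) y - L ^ (-(n : ℝ)) with hφ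
  have hφd : ∀ y : EuclideanSpace ℝ (Fin n), y ≠ 0 → ContDiffAt ℝ 2 φ y := fun y hy =>
    ((contDiffOn_rw' _).contDiffAt (isOpen_compl_singleton.mem_nhds hy)).sub contDiffAt_const
  set ψ : EuclideanSpace ℝ (Fin n) → ℝ := fun y => gap L g u y - κ * φ y with hψ
  have hψd : ∀ y : EuclideanSpace ℝ (Fin n), y ≠ 0 → ContDiffAt ℝ 2 ψ y := fun y hy =>
    (contDiffAt_gap F.sol.smoothu hL.ne' hy g).sub (contDiffAt_const.mul (hφd y hy))
  have hpos : ∀ y ∈ K, 0 ≤ ψ y := by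
    obtain ⟨y, hy, hmin⟩ := ((isCompact_closedBall (0 : EuclideanSpace ℝ (Fin n)) L).diff
      isOpen_ball).exists_isMinOn ⟨x, (hmemK x).2 ⟨by linarith, hxL.le⟩⟩
      fun y hy => (hψd y (hne y hy)).continuousAt.continuousWithinAt
    refine fun z hz => le_trans ?_ (hmin hz)
    by_contra hneg
    rw [not_le] at hneg
    obtain ⟨h1, h2⟩ := (hmemK y).1 hy
    rcases eq_or_lt_of_le h1 with h1 | h1
    · have : gap L g u xm ≤ gap L g u y := hxm' (mem_sphere_zero_iff_norm.2 h1.symm)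
      have e : κ * φ y = gap L g u xm := by
        rw [hφ, hκ]; simp only [rw'_eq, ← h1]; rw [← hC, div_mul_cancel₀ _ hC0.ne']
      simp only [hψ, e] at hneg
      linarith
    rcases eq_or_lt_of_le h2 with h2 | h2
    · have e : φ y = 0 := by simp [hφ, rw'_eq, h2]
      rw [hψ] at hneg
      simp only [e, mul_zero, sub_zero] at hneg
      linarith [hg y (hne y hy) h2.le]
    have hy0 := hne y hy
    have hloc : IsLocalMin ψ y := hmin.isLocalMin (mem_of_superset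
      (((isOpen_lt continuous_const continuous_norm).inter
        (isOpen_lt continuous_norm continuous_const)).mem_nhds
          (show y ∈ {z | L / 2 < ‖z‖} ∩ {z | ‖z‖ < L} from ⟨h1, h2⟩))
      fun z hz => (hmemK z).2 ⟨le_of_lt hz.1, le_of_lt hz.2⟩)
    have e1 := opr_le_of_min (hψd y hy0) hloc γ
    have hrc : ContDiffAt ℝ 2 (rw' (-(n : ℝ))) y :=
      (contDiffOn_rw' _).contDiffAt (isOpen_compl_singleton.mem_nhds hy0)
    have eφ : opr γ φ y < 0 := by
      have e := opr_sub (g := fun _ : EuclideanSpace ℝ (Fin n) => (1 : ℝ)) hrc contDiffAt_const γ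
        (L ^ (-(n : ℝ)))
      have e' := opr_rw'_mul (g := fun _ : EuclideanSpace ℝ (Fin n) => (1 : ℝ)) hy0 contDiffAt_const
        γ (-(n : ℝ))
      simp only [mul_one] at e e'
      have ep : ∀ i : Fin n, pd i (fun _ : EuclideanSpace ℝ (Fin n) => (1 : ℝ)) = fun _ => 0 :=
        fun i => funext fun z => by simp [pd]
      have ec : eul (fun _ : EuclideanSpace ℝ (Fin n) => (1 : ℝ)) y = 0 := by simp [eul, ep]
      have el : lap (fun _ : EuclideanSpace ℝ (Fin n) => (1 : ℝ)) y = 0 :=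
        Finset.sum_eq_zero fun i _ => by rw [ep]; simp [pd]
      have e1' : opr γ (fun _ : EuclideanSpace ℝ (Fin n) => (1 : ℝ)) y = γ * ((n : ℝ) - 2 - γ) := by
        simp [opr, ec, el]
      rw [ec, el, mul_zero, mul_zero, add_zero, sub_zero] at e'
      rw [e1', e'] at e
      show opr γ (fun z => rw' (-(n : ℝ)) z - L ^ (-(n : ℝ))) y < 0
      rw [e]
      have k1 : (γ - -(n : ℝ)) * ((n : ℝ) - 2 - γ + -(n : ℝ)) < 0 :=
        mul_neg_of_pos_of_neg (by rw [hγ]; linarith) (by rw [hγ]; linarith)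
      have k2 : 0 ≤ L ^ (-(n : ℝ)) * (γ * ((n : ℝ) - 2 - γ)) := mul_nonneg
        (Real.rpow_nonneg hL.le _) (mul_nonneg (by rw [hγ]; linarith) (by rw [hγ]; linarith))
      have k3 := mul_neg_of_pos_of_neg (rw'_pos (-(n : ℝ)) hy0) k1
      linarith
    have e2 : 0 ≤ opr γ (gap L g u) y := by
      rw [hγ, opr_gap F.sol hL.ne' hy0 g h]
      have hz := wgt_pos F.sol.posv hy0 h
      have := mul_le_mul (Real.rpow_le_rpow (norm_nonneg y) (le_norm_refl hy0 h2.le) F.sig.le)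
        (Real.rpow_le_rpow hz.le (sub_nonneg.1 (hh y hy0 h2.le)) F.hp.le)
        (Real.rpow_nonneg hz.le _) (Real.rpow_nonneg (norm_nonneg _) _)
      have := mul_nonneg (by linarith : (0 : ℝ) ≤ 2 * (2 * g - ((n : ℝ) - 2))) (he y hy0 h2.le)
      linarith
    have e3 := opr_sub (contDiffAt_gap F.sol.smoothu hL.ne' hy0 g) (hφd y hy0) γ κ
    change opr γ ψ y = _ at e3
    have := mul_neg_of_pos_of_neg hκ0 eφ
    have : γ * ((n : ℝ) - 2 - γ) * ψ y < 0 := mul_neg_of_pos_of_neg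
      (mul_pos (by rw [hγ]; linarith) (by rw [hγ]; linarith)) hneg
    linarith
  have hd : HasDerivAt (fun t : ℝ => ψ (t • x)) (eul ψ x) 1 := by
    simpa using hasDerivAt_ray (f := ψ) (x := x) one_ne_zero
      ((hψd _ (by simpa using hx)).differentiableAt (by norm_num))
  have hψ1 : ψ x = 0 := by
    have e := gap_self (g := g) (u := u) hx
    rw [hxL] at e
    simp [hψ, hφ, rw'_eq, hxL, e]
  have hle : eul ψ x ≤ 0 := by
    refine le_of_tendsto
      (hasDerivAt_iff_tendsto_slope.1 hd |>.mono_left (nhdsWithin_mono (1 : ℝ) (fun t (ht : t ∈ Iio (1 : ℝ)) => ne_of_lt (mem_Iio.1 ht)))) ?_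
    filter_upwards [Ioo_mem_nhdsLT (show (1 / 2 : ℝ) < 1 by norm_num)] with t ht
    have := hpos (t • x) ((hmemK _).2 (by
      rw [norm_smul, Real.norm_eq_abs, abs_of_pos (by linarith [ht.1]), hxL]
      constructor <;> nlinarith [ht.1, ht.2]))
    rw [slope_def_field, one_smul, hψ1, sub_zero]
    exact div_nonpos_of_nonneg_of_nonpos this (by linarith [ht.2])
  have d1 : DifferentiableAt ℝ (wgt g u) x :=
    (contDiffAt_wgt F.sol.smoothu hx g).differentiableAt (by norm_num)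
  have hTx : refl L x = x := hxL ▸ refl_self hx
  have hgapd : eul (gap L g u) x = -2 * eul (wgt g u) x := by
    have hc : DifferentiableAt ℝ (fun y => wgt g u (refl L y)) x := by
      refine DifferentiableAt.comp (g := wgt g u) x ?_ (differentiableAt_refl hx)
      rwa [hTx]
    have := eul_comp_refl (f := wgt g u) hx (by rwa [hTx] : DifferentiableAt ℝ (wgt g u) (refl L x))
    rw [hTx] at this
    calc eul (gap L g u) x = eul (fun y => wgt g u (refl L y)) x - eul (wgt g u) x := by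
          simp only [eul, ← Finset.sum_sub_distrib]
          exact Finset.sum_congr rfl fun i _ => by
            show x i * pd i (fun y => wgt g u (refl L y) - wgt g u y) x = _
            rw [pd_sub hc d1]; ring
      _ = _ := by rw [this]; ring
  have hφe : eul φ x = -(n : ℝ) * L ^ (-(n : ℝ)) := by
    have hz : ∑ i, x i * zc i x = 1 := by
      have : ∑ i, x i * x i = ‖x‖ ^ 2 := by rw [EuclideanSpace.norm_sq_eq]; simp [pow_two]
      calc ∑ i, x i * zc i x = (∑ i, x i * x i) * (‖x‖ ^ 2)⁻¹ := by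
            rw [Finset.sum_mul]; exact Finset.sum_congr rfl fun i _ => by simp only [zc]; ring
        _ = 1 := by rw [this, mul_inv_cancel₀ (norm_sq_ne hx)]
    calc eul φ x = ∑ i, (-(n : ℝ) * rw' (-(n : ℝ)) x) * (x i * zc i x) :=
          Finset.sum_congr rfl fun i _ => by
            show x i * pd i (fun y => rw' (-(n : ℝ)) y - L ^ (-(n : ℝ))) x = _
            rw [pd_sub (((contDiffOn_rw' (k := 1) _).contDiffAt
              (isOpen_compl_singleton.mem_nhds hx)).differentiableAt (by norm_num))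
              (differentiableAt_const _), pd_rw' _ hx,
              show pd i (fun _ : EuclideanSpace ℝ (Fin n) => L ^ (-(n : ℝ))) x = 0 by simp [pd]]
            ring
      _ = _ := by rw [← Finset.mul_sum, hz, rw'_eq, hxL, mul_one]
  have hψe : eul ψ x = eul (gap L g u) x - κ * eul φ x := by
    have df : DifferentiableAt ℝ φ x := (hφd x hx).differentiableAt (by norm_num)
    simp only [eul, Finset.mul_sum, ← Finset.sum_sub_distrib]
    exact Finset.sum_congr rfl fun i _ => by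
      show x i * pd i (fun y => gap L g u y - κ * φ y) x = _
      rw [pd_sub ((contDiffAt_gap F.sol.smoothu hL.ne' hx g).differentiableAt (by norm_num))
        (df.const_mul κ), pd_const_mul df]
      ring
  rw [hψe, hgapd, hφe] at hle
  have := mul_pos hκ0 (mul_pos (show (0 : ℝ) < n by linarith) (Real.rpow_pos_of_pos hL (-(n : ℝ))))
  linarith

/-- Good radii close to the origin. -/
theorem Frame.good_small (F : Frame n A B p q g h u v) {r₀ : ℝ} (S : Start n A p g h u v r₀)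
    (S' : Start n B q h g v u r₀) (hl : 0 < l) (hlr : l ≤ r₀) : Good g u l := by
  intro x hx hxl
  have hr0 : 0 < r₀ := hl.trans_le hlr
  set r : ℝ := l ^ 2 / r₀ with hr
  have hrl : r ≤ l := by
    rw [hr, div_le_iff₀ hr0, pow_two]
    exact mul_le_mul_of_nonneg_left hlr hl.le
  have outer : ∀ {A' p' g' h' : ℝ} {u' v' : EuclideanSpace ℝ (Fin n) → ℝ},
      Start n A' p' g' h' u' v' r₀ → ContDiffOn ℝ 2 u' {0}ᶜ →
      ∀ y : EuclideanSpace ℝ (Fin n), y ≠ 0 → ‖y‖ ≤ l → r ≤ ‖y‖ → 0 ≤ gap l g' u' y :=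
    fun S hu y hy hyl hry => gap_nonneg_of_eul hu hy hyl fun z hz1 hz2 => by
      have hy0 := norm_pos_iff.2 hy
      refine S.mono z (norm_pos_iff.1 (hy0.trans_le hz1)) (hz2.trans ?_)
      rw [div_le_iff₀ hy0]
      rw [hr, div_le_iff₀ hr0] at hry
      linarith
  by_cases hxr : r ≤ ‖x‖
  · exact outer S F.sol.smoothu x hx hxl hxr
  exact F.inner S S' hl (hrl.trans hlr) hrl
    (fun y hy e => outer S F.sol.smoothu y hy (e.le.trans hrl) e.ge)
    (fun y hy e => outer S' F.sol.smoothv y hy (e.le.trans hrl) e.ge) x hx (not_le.1 hxr).le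

/-- Every radius is good. -/
theorem Frame.good_all (F : Frame n A B p q g h u v) {r₀ : ℝ} (hr₀ : 0 < r₀)
    (S : Start n A p g h u v r₀) (S' : Start n B q h g v u r₀) (hl : 0 < l) :
    Good g u l ∧ Good h v l := by
  set T : Set ℝ := {L | ∀ ν, 0 < ν → ν ≤ L → Good g u ν ∧ Good h v ν} with hT
  have h0 : r₀ ∈ T := fun ν h1 h2 => ⟨F.good_small S S' h1 h2, F.swap.good_small S' S h1 h2⟩
  by_contra hbad
  have hbdd : BddAbove T := ⟨l, fun L hL => not_lt.1 fun h => hbad (hL l hl h.le)⟩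
  set L : ℝ := sSup T with hLdef
  have hL0 : r₀ ≤ L := le_csSup hbdd h0
  have hLp : 0 < L := hr₀.trans_le hL0
  have below : ∀ ν, 0 < ν → ν < L → Good g u ν ∧ Good h v ν := fun ν h1 h2 => by
    obtain ⟨L', hL', h3⟩ := exists_lt_of_lt_csSup ⟨r₀, h0⟩ h2
    exact hL' ν h1 h3.le
  have lim : ∀ (e : ℝ) (w : EuclideanSpace ℝ (Fin n) → ℝ), ContDiffOn ℝ 2 w {0}ᶜ →
      (∀ ν, 0 < ν → ν < L → Good e w ν) → ∀ ν, 0 < ν → ν ≤ L → Good e w ν := by
    intro e w hw hb ν h1 h2 x hx hxν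
    rcases lt_or_eq_of_le h2 with h2 | rfl
    · exact hb ν h1 h2 x hx hxν
    rcases lt_or_eq_of_le hxν with h3 | h3
    · have hc : ContinuousAt (fun ν : ℝ => gap ν e w x) L :=
        ContinuousAt.comp_of_eq (f := fun ν : ℝ => (ν, x)) (continuousAt_gap₂ hw hLp.ne' hx)
          (continuousAt_id.prodMk continuousAt_const) rfl
      refine ge_of_tendsto (hc.tendsto.mono_left (nhdsWithin_le_nhds (s := Iio L))) ?_
      filter_upwards [Ioo_mem_nhdsLT h3] with ν hν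
      exact hb ν ((norm_pos_iff.2 hx).trans hν.1) hν.2 x hx hν.1.le
    · rw [← h3, gap_self hx]
  have hgu := lim g u F.sol.smoothu fun ν h1 h2 => (below ν h1 h2).1
  have hgv := lim h v F.sol.smoothv fun ν h1 h2 => (below ν h1 h2).2
  have heu : ∀ y : EuclideanSpace ℝ (Fin n), y ≠ 0 → ‖y‖ ≤ L → 0 ≤ eul (wgt g u) y :=
    fun y => eul_nonneg_of_good F.sol.smoothu hgu
  have hev : ∀ y : EuclideanSpace ℝ (Fin n), y ≠ 0 → ‖y‖ ≤ L → 0 ≤ eul (wgt h v) y :=
    fun y => eul_nonneg_of_good F.sol.smoothv hgv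
  have hU : IsOpen {y : EuclideanSpace ℝ (Fin n) |
      y ≠ 0 ∧ 0 < eul (wgt g u) y ∧ 0 < eul (wgt h v) y} := by
    have e : ∀ (e : ℝ) (w : EuclideanSpace ℝ (Fin n) → ℝ), ContDiffOn ℝ 2 w {0}ᶜ →
        IsOpen ({0}ᶜ ∩ eul (wgt e w) ⁻¹' Ioi 0) := fun e w hw =>
      (continuousOn_eul fun y hy => (contDiffAt_wgt hw hy e).contDiffWithinAt).isOpen_inter_preimage
        isOpen_compl_singleton isOpen_Ioi
    convert (e g u F.sol.smoothu).inter (e h v F.sol.smoothv) using 1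
    ext y
    simp only [Set.mem_ofPred_eq, mem_inter_iff, mem_compl_iff, mem_singleton_iff, mem_preimage,
      mem_Ioi]
    tauto
  obtain ⟨δ₀, hδ₀, hthick⟩ := (isCompact_sphere (0 : EuclideanSpace ℝ (Fin n)) L).exists_thickening_subset_open
    hU fun y hy => by
      rw [mem_sphere_zero_iff_norm] at hy
      exact ⟨norm_pos_iff.1 (hy ▸ hLp), F.hopf hLp (hgu L hLp le_rfl) (hgv L hLp le_rfl) heu hy,
        F.swap.hopf hLp (hgv L hLp le_rfl) (hgu L hLp le_rfl) hev hy⟩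
  set δ : ℝ := min δ₀ (L / 2) with hδdef
  have hδ : 0 < δ := lt_min hδ₀ (by linarith)
  have hδL : δ ≤ L / 2 := min_le_right _ _
  have shell : ∀ y : EuclideanSpace ℝ (Fin n), L - δ < ‖y‖ → ‖y‖ < L + δ →
      0 ≤ eul (wgt g u) y ∧ 0 ≤ eul (wgt h v) y := fun y h1 h2 => by
    have hy0 : 0 < ‖y‖ := by linarith
    have hmem : y ∈ Metric.thickening δ₀ (sphere (0 : EuclideanSpace ℝ (Fin n)) L) := by
      rw [Metric.mem_thickening_iff]
      refine ⟨(L / ‖y‖) • y, ?_, ?_⟩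
      · rw [mem_sphere_zero_iff_norm, norm_smul, Real.norm_eq_abs, abs_of_pos (by positivity),
          div_mul_cancel₀ _ hy0.ne']
      · refine lt_of_lt_of_le ?_ (min_le_left δ₀ (L / 2))
        rw [dist_eq_norm, show y - (L / ‖y‖) • y = (1 - L / ‖y‖) • y by rw [sub_smul, one_smul],
          norm_smul, Real.norm_eq_abs]
        have e : |1 - L / ‖y‖| * ‖y‖ = |‖y‖ - L| := by
          calc |1 - L / ‖y‖| * ‖y‖ = |(1 - L / ‖y‖) * ‖y‖| := by rw [abs_mul, abs_of_pos hy0]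
            _ = _ := by rw [sub_mul, one_mul, div_mul_cancel₀ _ hy0.ne']
        rw [e, abs_sub_lt_iff]
        exact ⟨by linarith, by linarith⟩
    exact ⟨(hthick hmem).2.1.le, (hthick hmem).2.2.le⟩
  set r : ℝ := min r₀ (L - δ / 2) with hrdef
  have hr : 0 < r := lt_min hr₀ (by linarith)
  have hrL : r ≤ L - δ / 2 := min_le_right _ _
  set K : Set (EuclideanSpace ℝ (Fin n)) := closedBall 0 (L - δ / 2) \ ball 0 r with hK
  have hKne : ∀ y ∈ K, y ≠ 0 ∧ ‖y‖ < L := fun y hy => by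
    have h1 : ‖y‖ ≤ L - δ / 2 := by simpa using hy.1
    refine ⟨fun e => hy.2 (by rw [e]; exact mem_ball_self hr), by linarith⟩
  have hpos : ∀ᶠ ν in 𝓝 L, ∀ y ∈ K, 0 < gap ν g u y ∧ 0 < gap ν h v y := by
    refine ((isCompact_closedBall 0 (L - δ / 2)).diff isOpen_ball).eventually_forall_of_forall_eventually
      fun y hy => ?_
    obtain ⟨h1, h2⟩ := hKne y hy
    exact ((continuousAt_gap₂ F.sol.smoothu hLp.ne' h1).tendsto.eventually_const_lt
      (F.gap_pos hLp (hgu L hLp le_rfl) (hgv L hLp le_rfl) (heu y h1 h2.le) h1 h2)).and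
      ((continuousAt_gap₂ F.sol.smoothv hLp.ne' h1).tendsto.eventually_const_lt
      (F.swap.gap_pos hLp (hgv L hLp le_rfl) (hgu L hLp le_rfl) (hev y h1 h2.le) h1 h2))
  have hsq : ∀ᶠ ν in 𝓝 L, ν ^ 2 < (L + δ) * (L - δ / 2) :=
    ((continuous_pow 2).tendsto L).eventually_lt_const (by nlinarith)
  obtain ⟨ε, hε, hball⟩ := Metric.eventually_nhds_iff.1 (hpos.and hsq)
  have hTnew : L + ε / 2 ∈ T := by
    intro ν h1 h2
    rcases le_or_gt ν L with h3 | h3
    · exact ⟨hgu ν h1 h3, hgv ν h1 h3⟩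
    obtain ⟨hp', hq'⟩ := hball (show dist ν L < ε by
      rw [Real.dist_eq, abs_of_pos (by linarith)]; linarith)
    have outer : ∀ (e : ℝ) (w : EuclideanSpace ℝ (Fin n) → ℝ), ContDiffOn ℝ 2 w {0}ᶜ →
        (∀ z : EuclideanSpace ℝ (Fin n), L - δ < ‖z‖ → ‖z‖ < L + δ → 0 ≤ eul (wgt e w) z) →
        (∀ y ∈ K, 0 < gap ν e w y) →
        ∀ y : EuclideanSpace ℝ (Fin n), y ≠ 0 → ‖y‖ ≤ ν → r ≤ ‖y‖ → 0 ≤ gap ν e w y := by
      intro e w hw hsh hk y hy hyν hry
      rcases le_or_gt ‖y‖ (L - δ / 2) with h4 | h4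
      · exact (hk y ⟨by simpa using h4, by simpa using hry⟩).le
      refine gap_nonneg_of_eul hw hy hyν fun z hz1 hz2 => hsh z (by linarith) (hz2.trans_lt ?_)
      rw [div_lt_iff₀ (norm_pos_iff.2 hy)]
      exact hq'.trans_le (mul_le_mul_of_nonneg_left h4.le (by linarith))
    have ou := outer g u F.sol.smoothu (fun z a b => (shell z a b).1) fun y hy => (hp' y hy).1
    have ov := outer h v F.sol.smoothv (fun z a b => (shell z a b).2) fun y hy => (hp' y hy).2
    refine ⟨fun y hy hyν => ?_, fun y hy hyν => ?_⟩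
    · by_cases hyr : r ≤ ‖y‖
      · exact ou y hy hyν hyr
      exact F.inner S S' h1 (min_le_left _ _) (by linarith)
        (fun z hz e => ou z hz (by linarith) e.ge) (fun z hz e => ov z hz (by linarith) e.ge) y hy
        (not_le.1 hyr).le
    · by_cases hyr : r ≤ ‖y‖
      · exact ov y hy hyν hyr
      exact F.swap.inner S' S h1 (min_le_left _ _) (by linarith)
        (fun z hz e => ov z hz (by linarith) e.ge) (fun z hz e => ou z hz (by linarith) e.ge) y hy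
        (not_le.1 hyr).le
  linarith [le_csSup hbdd hTnew]

/-- `|x|^g u` increases along every ray. -/
theorem Frame.eul_nonneg (F : Frame n A B p q g h u v) {r₀ : ℝ} (hr₀ : 0 < r₀)
    (S : Start n A p g h u v r₀) (S' : Start n B q h g v u r₀) (hx : x ≠ 0) :
    0 ≤ eul (wgt g u) x :=
  eul_nonneg_of_good F.sol.smoothu (fun _ h1 _ => (F.good_all hr₀ S S' h1).1) hx le_rfl

end Vale.Agent.P100.Planes
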