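import Vale.Agent.P100.Planes.Inversion
import Vale.Agent.P100.Sector.Basic

/-!
P100, moving spheres about the origin: the functions `|x|^g u`, their differences with the reflected
functions, and the differential inequalities these satisfy.
-/

open Filter Topology Set Metric

namespace Vale.Agent.P100.Planes

open Vale.Agent.P100.Sys Vale.Agent.P100.Cmp Vale.Agent.P100.Wt
open Vale.Agent.P100.Sector (Sol)

variable {n : ℕ} {A B p q g h l : ℝ} {u v : EuclideanSpace ℝ (Fin n) → ℝ}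
  {x : EuclideanSpace ℝ (Fin n)}

/-- The weighted function `|x|^g u`. -/
noncomputable def wgt (g : ℝ) (u : EuclideanSpace ℝ (Fin n) → ℝ) (x : EuclideanSpace ℝ (Fin n)) : ℝ :=
  rw' g x * u x

/-- The reflected function minus the function. -/
noncomputable def gap (l g : ℝ) (u : EuclideanSpace ℝ (Fin n) → ℝ) (x : EuclideanSpace ℝ (Fin n)) : ℝ :=
  wgt g u (refl l x) - wgt g u x

/-- A frame for the moving spheres: exponents above `(n-2)/2` and strictly below the scaling ones. -/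
structure Frame (n : ℕ) (A B p q g h : ℝ) (u v : EuclideanSpace ℝ (Fin n) → ℝ) : Prop where
  hn : 3 ≤ n
  hA : -2 < A
  hB : -2 < B
  hp : 0 < p
  hq : 0 < q
  sol : Sol n A B p q u v
  g_low : ((n : ℝ) - 2) / 2 < g
  g_high : g < (n : ℝ) - 2
  h_low : ((n : ℝ) - 2) / 2 < h
  h_high : h < (n : ℝ) - 2
  sig : 0 < 2 + A + g - p * h
  tau : 0 < 2 + B + h - q * g

theorem Frame.swap (F : Frame n A B p q g h u v) : Frame n B A q p h g v u :=
  ⟨F.hn, F.hB, F.hA, F.hq, F.hp, F.sol.swap, F.h_low, F.h_high, F.g_low, F.g_high, F.tau, F.sig⟩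

theorem wgt_pos (hu : ∀ y, 0 < u y) (hx : x ≠ 0) (g : ℝ) : 0 < wgt g u x :=
  mul_pos (rw'_pos g hx) (hu x)

theorem contDiffAt_wgt (hu : ContDiffOn ℝ 2 u {0}ᶜ) (hx : x ≠ 0) (g : ℝ) :
    ContDiffAt ℝ 2 (wgt g u) x := by
  have hn := isOpen_compl_singleton.mem_nhds (show x ∈ ({0}ᶜ : Set (EuclideanSpace ℝ (Fin n))) from hx)
  exact ((contDiffOn_rw' g).contDiffAt hn).mul (hu.contDiffAt hn)

theorem contDiffAt_gap (hu : ContDiffOn ℝ 2 u {0}ᶜ) (hl : l ≠ 0) (hx : x ≠ 0) (g : ℝ) :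
    ContDiffAt ℝ 2 (gap l g u) x :=
  ((contDiffAt_wgt hu (refl_ne hl hx) g).comp x (contDiffAt_refl hx)).sub (contDiffAt_wgt hu hx g)

theorem opr_wgt (S : Sol n A B p q u v) (hx : x ≠ 0) (g h : ℝ) :
    opr g (wgt g u) x = ‖x‖ ^ (2 + A + g - p * h) * wgt h v x ^ p := by
  have hn := isOpen_compl_singleton.mem_nhds (show x ∈ ({0}ᶜ : Set (EuclideanSpace ℝ (Fin n))) from hx)
  have hx0 := norm_pos_iff.2 hx
  show opr g (fun y => rw' g y * u y) x = _
  rw [opr_rw'_mul hx (S.smoothu.contDiffAt hn), S.equ x hx, wgt, rw'_eq, rw'_eq,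
    Real.mul_rpow (Real.rpow_nonneg hx0.le _) (S.posv x).le, ← Real.rpow_mul hx0.le]
  have e : ‖x‖ ^ (2 + A + g - p * h) * ‖x‖ ^ (h * p) = ‖x‖ ^ g * (‖x‖ ^ A * ‖x‖ ^ 2) := by
    rw [← Real.rpow_two, ← Real.rpow_add hx0, ← Real.rpow_add hx0, ← Real.rpow_add hx0]
    congr 1
    ring
  linear_combination -(v x ^ p) * e

/-- The inequality for the difference, from monotonicity inside. -/
theorem opr_gap (S : Sol n A B p q u v) (hl : l ≠ 0) (hx : x ≠ 0) (g h : ℝ) :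
    opr ((n : ℝ) - 2 - g) (gap l g u) x =
      ‖refl l x‖ ^ (2 + A + g - p * h) * wgt h v (refl l x) ^ p -
        ‖x‖ ^ (2 + A + g - p * h) * wgt h v x ^ p +
        2 * (2 * g - ((n : ℝ) - 2)) * eul (wgt g u) x := by
  have hT := refl_ne hl hx
  have e := opr_sub (f := fun y => wgt g u (refl l y)) (g := wgt g u)
    ((contDiffAt_wgt S.smoothu hT g).comp x (contDiffAt_refl hx)) (contDiffAt_wgt S.smoothu hx g)
    ((n : ℝ) - 2 - g) 1
  simp only [one_mul] at e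
  show opr ((n : ℝ) - 2 - g) (fun y => wgt g u (refl l y) - wgt g u y) x = _
  rw [e, opr_comp_refl hl hx (contDiffAt_wgt S.smoothu hT g) g, opr_wgt S hT g h]
  have e' : opr ((n : ℝ) - 2 - g) (wgt g u) x = opr g (wgt g u) x +
      2 * ((n : ℝ) - 2 - 2 * g) * eul (wgt g u) x := by
    simp only [opr]; ring
  rw [e', opr_wgt S hx g h]
  ring

theorem le_norm_refl (hx : x ≠ 0) (hxl : ‖x‖ ≤ l) : ‖x‖ ≤ ‖refl l x‖ := by
  rw [norm_refl, le_div_iff₀ (norm_pos_iff.2 hx), ← pow_two]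
  exact pow_le_pow_left₀ (norm_nonneg x) hxl 2

theorem rpow_diff {a b p : ℝ} (ha : 0 < a) (hb : 0 < b) (hp : 0 < p) :
    a ^ p - b ^ p ≤ max 1 p * a ^ (p - 1) * max 0 (a - b) := by
  rcases le_or_gt a b with h | h
  · have h1 := Real.rpow_le_rpow ha.le h hp.le
    have h2 : 0 ≤ max 1 p * a ^ (p - 1) * max 0 (a - b) := mul_nonneg
      (mul_nonneg (le_max_of_le_left zero_le_one) (Real.rpow_nonneg ha.le _)) (le_max_left _ _)
    linarith
  set t : ℝ := b / a with ht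
  have ht0 : 0 < t := div_pos hb ha
  have ht1 : t ≤ 1 := (div_le_one ha).2 h.le
  have key : 1 - t ^ p ≤ max 1 p * (1 - t) := by
    rcases le_or_gt 1 p with hp1 | hp1
    · have := one_add_mul_self_le_rpow_one_add (s := t - 1) (by linarith) hp1
      rw [add_sub_cancel] at this
      nlinarith [le_max_right 1 p, sub_nonneg.2 ht1]
    · nlinarith [Real.self_le_rpow_of_le_one ht0.le ht1 hp1.le, le_max_left 1 p, sub_nonneg.2 ht1]
  have hb' : b ^ p = a ^ p * t ^ p := by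
    rw [← Real.mul_rpow ha.le ht0.le, ht, mul_div_cancel₀ _ ha.ne']
  rw [max_eq_right (by linarith : (0 : ℝ) ≤ a - b), Real.rpow_sub_one ha.ne', hb']
  calc a ^ p - a ^ p * t ^ p = a ^ p * (1 - t ^ p) := by ring
    _ ≤ a ^ p * (max 1 p * (1 - t)) := mul_le_mul_of_nonneg_left key (Real.rpow_nonneg ha.le _)
    _ = max 1 p * (a ^ p / a) * (a - b) := by rw [ht]; field_simp

/-- Where both differences are nonnegative, the first does not vanish inside. -/
theorem Frame.gap_pos (F : Frame n A B p q g h u v) (hl : 0 < l)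
    (hg : ∀ y : EuclideanSpace ℝ (Fin n), y ≠ 0 → ‖y‖ ≤ l → 0 ≤ gap l g u y)
    (hh : ∀ y : EuclideanSpace ℝ (Fin n), y ≠ 0 → ‖y‖ ≤ l → 0 ≤ gap l h v y)
    (he : 0 ≤ eul (wgt g u) x) (hx : x ≠ 0) (hxl : ‖x‖ < l) : 0 < gap l g u x := by
  refine lt_of_le_of_ne (hg x hx hxl.le) fun h0 => ?_
  have hmin : IsLocalMin (gap l g u) x := by
    filter_upwards [isOpen_compl_singleton.mem_nhds
      (show x ∈ ({0}ᶜ : Set (EuclideanSpace ℝ (Fin n))) from hx),
      (isOpen_lt continuous_norm continuous_const).mem_nhds hxl] with y hy hy'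
    rw [← h0]
    exact hg y hy hy'.le
  have h1 := opr_le_of_min (contDiffAt_gap F.sol.smoothu hl.ne' hx g) hmin ((n : ℝ) - 2 - g)
  rw [opr_gap F.sol hl.ne' hx g h, ← h0, mul_zero] at h1
  have hlt : ‖x‖ < ‖refl l x‖ := by
    rw [norm_refl, lt_div_iff₀ (norm_pos_iff.2 hx), ← pow_two]
    exact pow_lt_pow_left₀ hxl (norm_nonneg x) two_ne_zero
  have hz := wgt_pos F.sol.posv hx h
  have h2 : ‖x‖ ^ (2 + A + g - p * h) * wgt h v x ^ p <
      ‖refl l x‖ ^ (2 + A + g - p * h) * wgt h v (refl l x) ^ p :=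
    mul_lt_mul (Real.rpow_lt_rpow (norm_nonneg x) hlt F.sig)
      (Real.rpow_le_rpow hz.le (sub_nonneg.1 (hh x hx hxl.le)) F.hp.le)
      (Real.rpow_pos_of_pos hz _) (Real.rpow_nonneg (norm_nonneg _) _)
  have h3 : 0 ≤ 2 * (2 * g - ((n : ℝ) - 2)) * eul (wgt g u) x :=
    mul_nonneg (by linarith [F.g_low]) he
  linarith

/-- The weighted difference at an interior negative minimum. -/
theorem Frame.step (F : Frame n A B p q g h u v) (hl : 0 < l) (hx : x ≠ 0) (hxl : ‖x‖ ≤ l)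
    (he : 0 ≤ eul (wgt g u) x)
    (hmin : IsLocalMin (fun y => rw' (h - ((n : ℝ) - 2) / 2) y * gap l g u y) x) :
    ((((n : ℝ) - 2) / 2) ^ 2 - (g - h) ^ 2) * -(rw' (h - ((n : ℝ) - 2) / 2) x * gap l g u x) ≤
      max 1 p * ‖x‖ ^ (2 + A) * v x ^ (p - 1) *
        max 0 (-(rw' (g - ((n : ℝ) - 2) / 2) x * gap l h v x)) := by
  set a : ℝ := ((n : ℝ) - 2) / 2 with ha
  set ζ : EuclideanSpace ℝ (Fin n) → ℝ := fun y => rw' (h - a) y * gap l g u y with hζ
  have hn := isOpen_compl_singleton.mem_nhds (show x ∈ ({0}ᶜ : Set (EuclideanSpace ℝ (Fin n))) from hx)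
  have hx0 := norm_pos_iff.2 hx
  have hg2 := contDiffAt_gap F.sol.smoothu hl.ne' hx g
  have hζ2 : ContDiffAt ℝ 2 ζ x := ((contDiffOn_rw' _).contDiffAt hn).mul hg2
  have hev : gap l g u =ᶠ[𝓝 x] fun y => rw' (a - h) y * ζ y := by
    filter_upwards [hn] with y hy
    have : rw' (a - h) y * rw' (h - a) y = 1 := by
      rw [rw'_mul _ _ hy, rw'_eq, show a - h + (h - a) = 0 by ring, Real.rpow_zero]
    rw [hζ, ← mul_assoc, this, one_mul]
  have hop : opr ((n : ℝ) - 2 - g) (gap l g u) x =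
      opr ((n : ℝ) - 2 - g) (fun y => rw' (a - h) y * ζ y) x := by
    have e0 := hev.self_of_nhds
    have e1 : ∀ i, pd i (gap l g u) x = pd i (fun y => rw' (a - h) y * ζ y) x :=
      fun i => pd_congr hev i
    have e2 : lap (gap l g u) x = lap (fun y => rw' (a - h) y * ζ y) x :=
      Finset.sum_congr rfl fun i _ => pd_congr
        (hev.eventuallyEq_nhds.mono fun y hy => pd_congr hy i) i
    simp only [opr, eul, e1, e2]
    rw [e0]
  have hL := mul_nonneg (sq_nonneg ‖x‖) (Diag.lap_nonneg_of_isLocalMin hζ2 hmin)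
  have h1 := opr_rw'_mul hx hζ2 ((n : ℝ) - 2 - g) (a - h)
  rw [eul_eq_zero_of_min hmin, mul_zero, add_zero, ← hop, opr_gap F.sol hl.ne' hx g h] at h1
  have hz := wgt_pos F.sol.posv hx h
  have hZ := wgt_pos F.sol.posv (refl_ne hl.ne' hx) h
  have hR : ‖x‖ ^ (2 + A + g - p * h) * wgt h v (refl l x) ^ p ≤
      ‖refl l x‖ ^ (2 + A + g - p * h) * wgt h v (refl l x) ^ p :=
    mul_le_mul_of_nonneg_right (Real.rpow_le_rpow hx0.le (le_norm_refl hx hxl) F.sig.le)
      (Real.rpow_nonneg hZ.le _)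
  have h3 : 0 ≤ 2 * (2 * g - ((n : ℝ) - 2)) * eul (wgt g u) x :=
    mul_nonneg (by linarith [F.g_low]) he
  have h4 := mul_le_mul_of_nonneg_left (rpow_diff hz hZ F.hp)
    (Real.rpow_nonneg hx0.le (2 + A + g - p * h))
  have e5 : max 0 (wgt h v x - wgt h v (refl l x)) =
      rw' (a - g) x * max 0 (-(rw' (g - a) x * gap l h v x)) := by
    rw [mul_max_of_nonneg _ _ (rw'_pos _ hx).le, mul_zero]
    congr 1
    have : rw' (a - g) x * rw' (g - a) x = 1 := by
      rw [rw'_mul _ _ hx, rw'_eq, show a - g + (g - a) = 0 by ring, Real.rpow_zero]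
    rw [gap]
    linear_combination (wgt h v (refl l x) - wgt h v x) * this
  set M : ℝ := max 0 (-(rw' (g - a) x * gap l h v x)) with hM
  have e6 : ‖x‖ ^ (2 + A + g - p * h) * (max 1 p * wgt h v x ^ (p - 1) * (rw' (a - g) x * M)) =
      rw' (a - h) x * (max 1 p * ‖x‖ ^ (2 + A) * v x ^ (p - 1) * M) := by
    have e : ‖x‖ ^ (2 + A + g - p * h) * ((‖x‖ ^ h) ^ (p - 1) * ‖x‖ ^ (a - g)) =
        ‖x‖ ^ (a - h) * ‖x‖ ^ (2 + A) := by
      rw [← Real.rpow_mul hx0.le, ← Real.rpow_add hx0, ← Real.rpow_add hx0, ← Real.rpow_add hx0]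
      congr 1
      ring
    rw [wgt, rw'_eq, rw'_eq, rw'_eq, Real.mul_rpow (Real.rpow_nonneg hx0.le _) (F.sol.posv x).le]
    linear_combination max 1 p * v x ^ (p - 1) * M * e
  rw [e5, e6] at h4
  have hr := rw'_pos (a - h) hx
  refine le_of_mul_le_mul_left ?_ hr
  have e7 : ((n : ℝ) - 2 - g - (a - h)) * ((n : ℝ) - 2 - ((n : ℝ) - 2 - g) + (a - h)) =
      a ^ 2 - (g - h) ^ 2 := by rw [ha]; ring
  rw [e7] at h1
  have hL' := mul_nonneg hr.le hL
  linarith

end Vale.Agent.P100.Planes
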